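import Mathlib

/-!
# P122: one-dimensional extension operators, Gaussian weighted orthogonality
-/

namespace Vale.Agent.P122.Strip

open MeasureTheory Real Set Filter
open scoped ENNReal Topology

/-- `exp (2 π i y)`. -/
noncomputable def ee (y : ℝ) : ℂ := Complex.exp ((2 * π * y : ℝ) * Complex.I)

lemma norm_ee (y : ℝ) : ‖ee y‖ = 1 := Complex.norm_exp_ofReal_mul_I _

lemma enorm_ee (y : ℝ) : ‖ee y‖ₑ = 1 := by
  rw [← ofReal_norm, norm_ee, ENNReal.ofReal_one]

lemma ee_add (y z : ℝ) : ee (y + z) = ee y * ee z := by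
  unfold ee; rw [← Complex.exp_add]; push_cast; ring_nf

lemma conj_ee (y : ℝ) : (starRingEnd ℂ) (ee y) = ee (-y) := by
  unfold ee; rw [← Complex.exp_conj]; congr 1
  simp [Complex.conj_ofReal, map_ofNat]

@[fun_prop] lemma continuous_ee : Continuous ee := by unfold ee; fun_prop

/-- Lebesgue measure on `[-1, 1]`. -/
noncomputable def I₁ : Measure ℝ := volume.restrict (Icc (-1) 1)

instance instFiniteI₁ : IsFiniteMeasure I₁ := by unfold I₁; infer_instance

/-- One-dimensional extension operator. -/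
noncomputable def ext1 (φ : ℝ → ℝ) (g : ℝ → ℂ) (t x : ℝ) : ℂ :=
  ∫ ξ, g ξ * ee (x * ξ + t * φ ξ) ∂I₁

/-- Gaussian weight. -/
noncomputable def gw (R x : ℝ) : ℝ := Real.exp (-(π * (x / R) ^ 2))

/-- Its Fourier transform. -/
noncomputable def gk (R a : ℝ) : ℝ := R * Real.exp (-(π * (R * a) ^ 2))

@[fun_prop] lemma continuous_gw (R : ℝ) : Continuous (gw R) := by unfold gw; fun_prop
@[fun_prop] lemma continuous_gk (R : ℝ) : Continuous (gk R) := by unfold gk; fun_prop

lemma gw_nonneg (R x : ℝ) : 0 ≤ gw R x := (Real.exp_pos _).le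
lemma gk_nonneg {R : ℝ} (hR : 0 ≤ R) (a : ℝ) : 0 ≤ gk R a := mul_nonneg hR (Real.exp_pos _).le
lemma gk_le {R : ℝ} (hR : 0 ≤ R) (a : ℝ) : gk R a ≤ R :=
  mul_le_of_le_one_right hR (Real.exp_le_one_iff.mpr (neg_nonpos.mpr (by positivity)))
lemma gk_neg (R a : ℝ) : gk R (-a) = gk R a := by unfold gk; ring_nf

lemma integrable_gw {R : ℝ} (hR : 0 < R) : Integrable (gw R) := by
  have h := integrable_exp_neg_mul_sq (b := π / R ^ 2) (by positivity)
  refine h.congr (Eventually.of_forall fun x => ?_)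
  simp only [gw]
  congr 1
  field_simp

lemma lintegral_gk {R : ℝ} (hR : 0 < R) : ∫⁻ a, ENNReal.ofReal (gk R a) = 1 := by
  have hi : Integrable (gk R) := by
    refine ((integrable_exp_neg_mul_sq (b := π * R ^ 2) (by positivity)).const_mul R).congr
      (Eventually.of_forall fun x => ?_)
    simp only [gk]; ring_nf
  rw [← ofReal_integral_eq_lintegral_ofReal hi (Eventually.of_forall (gk_nonneg hR.le))]
  have : ∫ a, gk R a = 1 := by
    have h := integral_gaussian (π * R ^ 2)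
    rw [show (fun a => gk R a) = fun a => R * Real.exp (-(π * R ^ 2) * a ^ 2) from
      funext fun a => by simp only [gk]; ring_nf, integral_const_mul, h]
    rw [show π / (π * R ^ 2) = (1 / R) ^ 2 by field_simp, Real.sqrt_sq (by positivity)]
    field_simp
  rw [this, ENNReal.ofReal_one]

lemma integral_gw_ee {R : ℝ} (hR : 0 < R) (a : ℝ) :
    ∫ x, (gw R x : ℂ) * ee (x * a) = (gk R a : ℂ) := by
  have hb : 0 < ((π / R ^ 2 : ℝ) : ℂ).re := by rw [Complex.ofReal_re]; positivity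
  have h := fourierIntegral_gaussian hb ((2 * π * a : ℝ) : ℂ)
  have hlhs : ∫ x, (gw R x : ℂ) * ee (x * a) =
      ∫ x : ℝ, Complex.exp (Complex.I * ((2 * π * a : ℝ) : ℂ) * x) *
        Complex.exp (-((π / R ^ 2 : ℝ) : ℂ) * (x : ℂ) ^ 2) := by
    congr 1
    funext x
    simp only [gw, ee, Complex.ofReal_exp]
    rw [mul_comm]
    congr 1 <;> congr 1
    · push_cast; ring
    · push_cast; ring
  rw [hlhs, h]
  have h1 : ((π : ℂ) / ((π / R ^ 2 : ℝ) : ℂ)) = ((R ^ 2 : ℝ) : ℂ) := by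
    rw [← Complex.ofReal_div]
    congr 1
    field_simp
  rw [h1, show ((1 : ℂ) / 2) = ((1 / 2 : ℝ) : ℂ) by norm_num,
    ← Complex.ofReal_cpow (by positivity), ← Real.sqrt_eq_rpow, Real.sqrt_sq hR.le,
    show -((2 * π * a : ℝ) : ℂ) ^ 2 / (4 * ((π / R ^ 2 : ℝ) : ℂ)) =
      ((-(π * (R * a) ^ 2) : ℝ) : ℂ) by
        have : (π : ℂ) ≠ 0 := Complex.ofReal_ne_zero.mpr pi_ne_zero
        have : (R : ℂ) ≠ 0 := Complex.ofReal_ne_zero.mpr hR.ne'
        push_cast
        field_simp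
        ring,
    ← Complex.ofReal_exp, ← Complex.ofReal_mul]
  rfl

/-- Gaussian averaging of a superposition of characters. -/
lemma gauss_average {Ω : Type*} [MeasurableSpace Ω] {ν : Measure Ω} [SFinite ν] {R : ℝ} (hR : 0 < R)
    {G : Ω → ℂ} (hG : Integrable G ν) {a : Ω → ℝ} (ha : Measurable a) :
    ∫ x, (gw R x : ℂ) * ∫ ω, G ω * ee (x * a ω) ∂ν = ∫ ω, G ω * (gk R (a ω) : ℂ) ∂ν := by
  have hint : Integrable (Function.uncurry fun x ω => (gw R x : ℂ) * (G ω * ee (x * a ω)))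
      (volume.prod ν) := by
    have hgw : Integrable (fun x : ℝ => (gw R x : ℂ)) := (integrable_gw hR).ofReal
    have h := Integrable.mul_prod hgw hG
    have hb : AEStronglyMeasurable (fun p : ℝ × Ω => ee (p.1 * a p.2)) (volume.prod ν) :=
      (continuous_ee.measurable.comp
        (measurable_fst.mul (ha.comp measurable_snd))).aestronglyMeasurable
    refine (h.bdd_mul hb (c := 1) (Eventually.of_forall fun p => (norm_ee _).le)).congr
      (Eventually.of_forall fun p => ?_)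
    simp only [Function.uncurry]
    ring
  calc ∫ x, (gw R x : ℂ) * ∫ ω, G ω * ee (x * a ω) ∂ν
      = ∫ x, ∫ ω, (gw R x : ℂ) * (G ω * ee (x * a ω)) ∂ν := by
        congr 1; funext x; rw [integral_const_mul]
    _ = ∫ ω, (∫ x, (gw R x : ℂ) * (G ω * ee (x * a ω))) ∂ν := integral_integral_swap hint
    _ = _ := by
        refine integral_congr_ae (Eventually.of_forall fun ω => ?_)
        beta_reduce
        rw [← integral_gw_ee hR (a ω), ← integral_const_mul]
        refine integral_congr_ae (Eventually.of_forall fun x => ?_)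
        ring

lemma continuous_sup_integral {Ω : Type*} [MeasurableSpace Ω] {ν : Measure Ω}
    {G : Ω → ℂ} (hG : Integrable G ν) {a b : Ω → ℝ} (ha : Measurable a) (hb : Measurable b) :
    Continuous fun p : ℝ × ℝ => ∫ ω, G ω * ee (p.1 * a ω + p.2 * b ω) ∂ν := by
  refine continuous_of_dominated (fun p => ?_) (fun p => ?_) hG.norm ?_
  · exact hG.aestronglyMeasurable.mul (continuous_ee.measurable.comp
      ((ha.const_mul p.1).add (hb.const_mul p.2))).aestronglyMeasurable
  · exact Eventually.of_forall fun ω => by rw [norm_mul, norm_ee, mul_one]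
  · exact Eventually.of_forall fun ω => by fun_prop

lemma continuous_ext1 {φ : ℝ → ℝ} (hφ : Measurable φ) {g : ℝ → ℂ} (hg : Integrable g I₁) :
    Continuous fun p : ℝ × ℝ => ext1 φ g p.1 p.2 := by
  have h := (continuous_sup_integral hg measurable_id hφ).comp continuous_swap
  refine h.congr fun p => ?_
  simp [ext1]

lemma sq_norm_sup_integral {Ω : Type*} [MeasurableSpace Ω] {ν : Measure Ω} [SFinite ν]
    (G : Ω → ℂ) (u : Ω → ℝ) :
    ((‖∫ ω, G ω * ee (u ω) ∂ν‖ ^ 2 : ℝ) : ℂ) =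
      ∫ p : Ω × Ω, G p.1 * (starRingEnd ℂ) (G p.2) * ee (u p.1 - u p.2) ∂(ν.prod ν) := by
  rw [Complex.ofReal_pow, ← Complex.mul_conj', ← integral_conj, ← integral_prod_mul]
  congr 1; funext p
  rw [map_mul, conj_ee, sub_eq_add_neg, ee_add]
  ring

/-- Weighted `L²` bound in space. -/
lemma l2_space {φ : ℝ → ℝ} (hφ : Measurable φ) {g : ℝ → ℂ} (hg : Integrable g I₁) (t : ℝ) :
    ∫⁻ x, ‖ext1 φ g t x‖ₑ ^ 2 ≤ ∫⁻ ξ, ‖g ξ‖ₑ ^ 2 ∂I₁ := by
  have hc : Continuous fun x => ext1 φ g t x :=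
    (continuous_ext1 hφ hg).comp (Continuous.prodMk_right t)
  have hR : ∀ R : ℝ, 0 < R →
      ∫⁻ x, ENNReal.ofReal (gw R x) * ‖ext1 φ g t x‖ₑ ^ 2 ≤ ∫⁻ ξ, ‖g ξ‖ₑ ^ 2 ∂I₁ := by
    intro R hR
    set G : ℝ × ℝ → ℂ := fun p => g p.1 * (starRingEnd ℂ) (g p.2) * ee (t * (φ p.1 - φ p.2)) with hGd
    have hgc : Integrable (fun ξ => (starRingEnd ℂ) (g ξ)) I₁ :=
      Complex.conjCLE.toContinuousLinearMap.integrable_comp hg
    have hG : Integrable G (I₁.prod I₁) := by
      refine ((hg.mul_prod hgc).bdd_mul (c := 1)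
        ((continuous_ee.measurable.comp (((hφ.comp measurable_fst).sub
          (hφ.comp measurable_snd)).const_mul t)).aestronglyMeasurable)
        (Eventually.of_forall fun p => (norm_ee _).le)).congr
        (Eventually.of_forall fun p => ?_)
      simp only [hGd, Function.comp_apply, Pi.sub_apply]
      ring
    have hkey : ∫ x, ((gw R x * ‖ext1 φ g t x‖ ^ 2 : ℝ) : ℂ) =
        ∫ p, G p * (gk R (p.1 - p.2) : ℂ) ∂(I₁.prod I₁) := by
      refine Eq.trans ?_ (gauss_average hR hG (a := fun p : ℝ × ℝ => p.1 - p.2) (by fun_prop))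
      congr 1; funext x
      rw [Complex.ofReal_mul, ext1, sq_norm_sup_integral]
      congr 2; funext p
      simp only [hGd]
      rw [mul_assoc (g p.1 * (starRingEnd ℂ) (g p.2)), ← ee_add, mul_assoc]
      ring_nf
    have hnn : ∀ x, 0 ≤ gw R x * ‖ext1 φ g t x‖ ^ 2 := fun x =>
      mul_nonneg (gw_nonneg _ _) (sq_nonneg _)
    have hint : Integrable fun x => gw R x * ‖ext1 φ g t x‖ ^ 2 := by
      refine ((integrable_gw hR).mul_const ((∫ ξ, ‖g ξ‖ ∂I₁) ^ 2)).mono'
        (Continuous.aestronglyMeasurable (by fun_prop)) (Eventually.of_forall fun x => ?_)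
      rw [Real.norm_of_nonneg (hnn x)]
      refine mul_le_mul_of_nonneg_left (pow_le_pow_left₀ (norm_nonneg _) ?_ 2) (gw_nonneg _ _)
      refine (norm_integral_le_integral_norm _).trans (le_of_eq ?_)
      simp only [norm_mul, norm_ee, mul_one]
    calc ∫⁻ x, ENNReal.ofReal (gw R x) * ‖ext1 φ g t x‖ₑ ^ 2
        = ∫⁻ x, ENNReal.ofReal (gw R x * ‖ext1 φ g t x‖ ^ 2) := by
          congr 1; funext x
          rw [ENNReal.ofReal_mul (gw_nonneg _ _), ENNReal.ofReal_pow (norm_nonneg _), ofReal_norm]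
      _ = ENNReal.ofReal (∫ x, gw R x * ‖ext1 φ g t x‖ ^ 2) :=
          (ofReal_integral_eq_lintegral_ofReal hint (Eventually.of_forall hnn)).symm
      _ ≤ ‖∫ p, G p * (gk R (p.1 - p.2) : ℂ) ∂(I₁.prod I₁)‖ₑ := by
          rw [← hkey, integral_complex_ofReal, ← ofReal_norm, Complex.norm_real]
          exact ENNReal.ofReal_le_ofReal (le_abs_self _)
      _ ≤ ∫⁻ p, ‖g p.1‖ₑ * ‖g p.2‖ₑ * ENNReal.ofReal (gk R (p.1 - p.2)) ∂(I₁.prod I₁) := by
          refine (enorm_integral_le_lintegral_enorm _).trans (le_of_eq ?_)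
          congr 1; funext p
          simp only [hGd, enorm_mul, enorm_ee, mul_one, RCLike.enorm_conj]
          rw [← ofReal_norm (((gk R (p.1 - p.2) : ℝ) : ℂ)), Complex.norm_real,
            Real.norm_of_nonneg (gk_nonneg hR.le _)]
      _ ≤ ∫⁻ p, 2⁻¹ * ((‖g p.1‖ₑ ^ 2 + ‖g p.2‖ₑ ^ 2) * ENNReal.ofReal (gk R (p.1 - p.2)))
            ∂(I₁.prod I₁) := by
          refine lintegral_mono fun p => ?_
          rw [← mul_assoc]
          refine mul_le_mul_of_nonneg_right ?_ zero_le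
          rw [← ofReal_norm, ← ofReal_norm, ← ENNReal.ofReal_mul (norm_nonneg _),
            ← ENNReal.ofReal_pow (norm_nonneg _), ← ENNReal.ofReal_pow (norm_nonneg _),
            ← ENNReal.ofReal_add (by positivity) (by positivity),
            show (2 : ℝ≥0∞)⁻¹ = ENNReal.ofReal (2⁻¹ : ℝ) by
              rw [ENNReal.ofReal_inv_of_pos two_pos, ENNReal.ofReal_ofNat],
            ← ENNReal.ofReal_mul (by positivity)]
          exact ENNReal.ofReal_le_ofReal (by nlinarith [sq_nonneg (‖g p.1‖ - ‖g p.2‖)])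
      _ ≤ ∫⁻ ξ, ‖g ξ‖ₑ ^ 2 ∂I₁ := by
          have hm1 : AEMeasurable (fun p : ℝ × ℝ =>
              ‖g p.1‖ₑ ^ 2 * ENNReal.ofReal (gk R (p.1 - p.2))) (I₁.prod I₁) :=
            ((hg.aestronglyMeasurable.comp_fst.enorm).pow_const 2).mul
              (by fun_prop : Measurable fun p : ℝ × ℝ => ENNReal.ofReal (gk R (p.1 - p.2))).aemeasurable
          have hone : ∀ ξ : ℝ, ∫⁻ y, ENNReal.ofReal (gk R (ξ - y)) ∂I₁ ≤ 1 := by
            intro ξ
            refine (setLIntegral_le_lintegral _ _).trans (le_of_eq ?_)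
            rw [← lintegral_gk hR]
            exact lintegral_sub_left_eq_self (fun a => ENNReal.ofReal (gk R a)) ξ
          have hA : ∫⁻ p, ‖g p.1‖ₑ ^ 2 * ENNReal.ofReal (gk R (p.1 - p.2)) ∂(I₁.prod I₁) ≤
              ∫⁻ ξ, ‖g ξ‖ₑ ^ 2 ∂I₁ := by
            rw [lintegral_prod _ hm1]
            refine lintegral_mono fun ξ => ?_
            dsimp only
            rw [lintegral_const_mul' _ _ (ENNReal.pow_ne_top enorm_ne_top)]
            exact mul_le_of_le_one_right zero_le (hone ξ)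
          simp only [add_mul]
          rw [lintegral_const_mul' _ _ (by norm_num), lintegral_add_left' hm1]
          have hB : ∫⁻ p, ‖g p.2‖ₑ ^ 2 * ENNReal.ofReal (gk R (p.1 - p.2)) ∂(I₁.prod I₁) =
              ∫⁻ p, ‖g p.1‖ₑ ^ 2 * ENNReal.ofReal (gk R (p.1 - p.2)) ∂(I₁.prod I₁) := by
            rw [← lintegral_prod_swap]
            congr 1; funext p
            simp only [Prod.fst_swap, Prod.snd_swap]
            rw [← gk_neg R (p.2 - p.1), neg_sub]
          rw [hB, ← two_mul, ← mul_assoc, ENNReal.inv_mul_cancel (by norm_num) (by norm_num), one_mul]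
          exact hA
  have hlim : ∀ x, Tendsto (fun n : ℕ => ENNReal.ofReal (gw ((n : ℝ) + 1) x) * ‖ext1 φ g t x‖ₑ ^ 2)
      atTop (𝓝 (‖ext1 φ g t x‖ₑ ^ 2)) := by
    intro x
    have h0 : Tendsto (fun n : ℕ => x / ((n : ℝ) + 1)) atTop (𝓝 0) := by
      have := (tendsto_one_div_add_atTop_nhds_zero_nat (𝕜 := ℝ)).const_mul x
      simpa [div_eq_mul_inv] using this
    have h1 : Tendsto (fun n : ℕ => gw ((n : ℝ) + 1) x) atTop (𝓝 1) := by
      have hc : Continuous fun y : ℝ => Real.exp (-(π * y ^ 2)) := by fun_prop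
      simpa [gw, Function.comp_def] using (hc.tendsto 0).comp h0
    have h2 := ENNReal.Tendsto.mul_const (ENNReal.tendsto_ofReal h1)
      (b := ‖ext1 φ g t x‖ₑ ^ 2) (Or.inr (ENNReal.pow_ne_top enorm_ne_top))
    simpa using h2
  calc ∫⁻ x, ‖ext1 φ g t x‖ₑ ^ 2
      = ∫⁻ x, liminf (fun n : ℕ =>
          ENNReal.ofReal (gw ((n : ℝ) + 1) x) * ‖ext1 φ g t x‖ₑ ^ 2) atTop :=
        lintegral_congr fun x => (hlim x).liminf_eq.symm
    _ ≤ liminf (fun n : ℕ =>
          ∫⁻ x, ENNReal.ofReal (gw ((n : ℝ) + 1) x) * ‖ext1 φ g t x‖ₑ ^ 2) atTop :=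
        lintegral_liminf_le fun n => (ENNReal.continuous_ofReal.measurable.comp
          (continuous_gw _).measurable).mul (hc.measurable.enorm.pow_const 2)
    _ ≤ _ := liminf_le_of_frequently_le' (Frequently.of_forall fun n => hR _ (by positivity))

end Vale.Agent.P122.Strip
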