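import Vale.Agent.P122.Strip.L4

/-!
# P122: real interpolation between `L²` and the logarithmic `L⁴` estimate
-/

namespace Vale.Agent.P122.Strip

open MeasureTheory Real Set Filter
open scoped ENNReal Topology

variable {c : ℝ} {φ : ℝ → ℝ}

/-- Space-time measure of the slab. -/
noncomputable def slab (T : ℝ) : Measure (ℝ × ℝ) := (volume.restrict (Icc (-T) T)).prod volume

lemma ext1_add {g₁ g₂ : ℝ → ℂ} (hφ : Measurable φ) (h₁ : Integrable g₁ I₁) (h₂ : Integrable g₂ I₁)
    (t x : ℝ) : ext1 φ (fun ξ => g₁ ξ + g₂ ξ) t x = ext1 φ g₁ t x + ext1 φ g₂ t x := by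
  have hb : ∀ g : ℝ → ℂ, Integrable g I₁ →
      Integrable (fun ξ => g ξ * ee (x * ξ + t * φ ξ)) I₁ := fun g hg =>
    hg.mul_bdd (c := 1) (continuous_ee.measurable.comp
      ((measurable_id.const_mul x).add (hφ.const_mul t))).aestronglyMeasurable
      (Eventually.of_forall fun ξ => (norm_ee _).le)
  simp only [ext1, add_mul]
  exact integral_add (hb g₁ h₁) (hb g₂ h₂)

lemma l2_slab (h : Curved c φ) {g : ℝ → ℂ} (hg : Integrable g I₁) (T : ℝ) :
    ∫⁻ q, ‖ext1 φ g q.1 q.2‖ₑ ^ 2 ∂slab T ≤ ENNReal.ofReal (2 * T) * ∫⁻ ξ, ‖g ξ‖ₑ ^ 2 ∂I₁ := by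
  have hm := (continuous_ext1 h.differentiable.continuous.measurable hg).measurable
  rw [slab, lintegral_prod _ (hm.enorm.pow_const 2).aemeasurable]
  refine (lintegral_mono fun t => l2_space h.differentiable.continuous.measurable hg t).trans ?_
  rw [lintegral_const, Measure.restrict_apply_univ, Real.volume_Icc, mul_comm]
  ring_nf
  exact le_rfl

lemma l4_slab (h : Curved c φ) {g : ℝ → ℂ} (hg : Integrable g I₁) {T : ℝ} (hT : 1 ≤ T) :
    ∫⁻ q, ‖ext1 φ g q.1 q.2‖ₑ ^ 4 ∂slab T ≤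
      ENNReal.ofReal (Real.exp π * Lc c T) * ∫⁻ ξ, ‖g ξ‖ₑ ^ 4 ∂I₁ := by
  have hm := (continuous_ext1 h.differentiable.continuous.measurable hg).measurable
  rw [slab, lintegral_prod _ (hm.enorm.pow_const 4).aemeasurable]
  exact l4 h hg hT

/-- The truncated density at level `l`. -/
noncomputable def Phi (p a A B l r : ℝ) : ℝ :=
  if a * l < r then A * r ^ 2 * l ^ (p - 3) else B * r ^ 4 * l ^ (p - 5)

lemma integral_Phi {p a A B r : ℝ} (hp2 : 2 < p) (hp4 : p < 4) (ha : 0 < a) (hA : 0 ≤ A)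
    (hB : 0 ≤ B) (hr : 0 ≤ r) :
    ∫⁻ l in Ioi (0 : ℝ), ENNReal.ofReal (Phi p a A B l r) ≤
      ENNReal.ofReal ((A * a ^ (2 - p) / (p - 2) + B * a ^ (4 - p) / (4 - p)) * r ^ p) := by
  rcases hr.eq_or_lt with rfl | hr'
  · have h : ∀ l ∈ Ioi (0 : ℝ), ENNReal.ofReal (Phi p a A B l 0) = 0 := by
      intro l hl
      have : ¬ a * l < 0 := not_lt.mpr (mul_nonneg ha.le (le_of_lt hl))
      simp [Phi, this]
    rw [setLIntegral_congr_fun measurableSet_Ioi h]
    simp
  set b := r / a with hb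
  have hb0 : 0 < b := div_pos hr' ha
  have hU : Ioi (0 : ℝ) = Ioc 0 b ∪ Ioi b := (Ioc_union_Ioi_eq_Ioi hb0.le).symm
  rw [hU, lintegral_union measurableSet_Ioi (Ioc_disjoint_Ioi le_rfl)]
  have i1 : IntegrableOn (fun l : ℝ => A * r ^ 2 * l ^ (p - 3)) (Ioc 0 b) :=
    (intervalIntegrable_iff_integrableOn_Ioc_of_le hb0.le).mp
      ((intervalIntegral.intervalIntegrable_rpow' (by linarith)).const_mul _)
  have i2 : IntegrableOn (fun l : ℝ => B * r ^ 4 * l ^ (p - 5)) (Ioi b) :=
    (integrableOn_Ioi_rpow_of_lt (by linarith) hb0).const_mul _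
  have e1 : ∫⁻ l in Ioc 0 b, ENNReal.ofReal (Phi p a A B l r) ≤
      ENNReal.ofReal (A * a ^ (2 - p) / (p - 2) * r ^ p) := by
    calc ∫⁻ l in Ioc 0 b, ENNReal.ofReal (Phi p a A B l r)
        ≤ ∫⁻ l in Ioc 0 b, ENNReal.ofReal (A * r ^ 2 * l ^ (p - 3)) := by
          refine lintegral_mono_ae ?_
          have : ∀ᵐ l ∂(volume.restrict (Ioc 0 b)), l ∈ Ioc 0 b ∧ l ≠ b :=
            (ae_restrict_mem measurableSet_Ioc).and (ae_restrict_of_ae (Measure.ae_ne volume b))
          filter_upwards [this] with l hl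
          have : a * l < r := by
            have := lt_of_le_of_ne hl.1.2 hl.2
            rw [hb, lt_div_iff₀ ha] at this
            linarith
          simp [Phi, this]
      _ = ENNReal.ofReal (∫ l in Ioc 0 b, A * r ^ 2 * l ^ (p - 3)) :=
          (ofReal_integral_eq_lintegral_ofReal i1 ((ae_restrict_iff' measurableSet_Ioc).mpr
            (Eventually.of_forall fun l hl =>
              mul_nonneg (mul_nonneg hA (sq_nonneg r)) (Real.rpow_nonneg hl.1.le _)))).symm
      _ ≤ _ := by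
          refine ENNReal.ofReal_le_ofReal (le_of_eq ?_)
          rw [← intervalIntegral.integral_of_le hb0.le, intervalIntegral.integral_const_mul,
            integral_rpow (Or.inl (by linarith)), Real.zero_rpow (by linarith), sub_zero,
            show p - 3 + 1 = p - 2 by ring, hb, Real.div_rpow hr'.le ha.le,
            show (2 : ℝ) - p = -(p - 2) by ring, Real.rpow_neg ha.le,
            show r ^ p = r ^ (2 : ℕ) * r ^ (p - 2) by
              rw [← Real.rpow_natCast r 2, ← Real.rpow_add hr']; norm_num]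
          ring
  have e2 : ∫⁻ l in Ioi b, ENNReal.ofReal (Phi p a A B l r) ≤
      ENNReal.ofReal (B * a ^ (4 - p) / (4 - p) * r ^ p) := by
    calc ∫⁻ l in Ioi b, ENNReal.ofReal (Phi p a A B l r)
        = ∫⁻ l in Ioi b, ENNReal.ofReal (B * r ^ 4 * l ^ (p - 5)) := by
          refine setLIntegral_congr_fun measurableSet_Ioi fun l hl => ?_
          have : ¬ a * l < r := by
            rw [mem_Ioi, hb, div_lt_iff₀ ha] at hl
            linarith
          simp [Phi, this]
      _ = ENNReal.ofReal (∫ l in Ioi b, B * r ^ 4 * l ^ (p - 5)) :=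
          (ofReal_integral_eq_lintegral_ofReal i2 ((ae_restrict_iff' measurableSet_Ioi).mpr
            (Eventually.of_forall fun l hl =>
              mul_nonneg (mul_nonneg hB (by positivity))
                (Real.rpow_nonneg (hb0.trans hl).le _)))).symm
      _ ≤ _ := by
          refine ENNReal.ofReal_le_ofReal (le_of_eq ?_)
          rw [integral_const_mul, integral_Ioi_rpow_of_lt (by linarith) hb0,
            show p - 5 + 1 = -(4 - p) by ring, hb, Real.rpow_neg (by positivity),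
            Real.div_rpow hr'.le ha.le,
            show r ^ p = r ^ (4 : ℕ) / r ^ (4 - p) by
              rw [← Real.rpow_natCast r 4, ← Real.rpow_sub hr']; norm_num]
          have : a ^ (4 - p) ≠ 0 := (Real.rpow_pos_of_pos ha _).ne'
          have : r ^ (4 - p) ≠ 0 := (Real.rpow_pos_of_pos hr' _).ne'
          have : 4 - p ≠ 0 := by linarith
          field_simp
  refine (add_le_add e1 e2).trans (le_of_eq ?_)
  have : 0 < p - 2 := by linarith
  have : 0 < 4 - p := by linarith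
  rw [← ENNReal.ofReal_add (by positivity) (by positivity), ← add_mul]

lemma level_bound (h : Curved c φ) {g : ℝ → ℂ} (hgm : Measurable g) (hg : Integrable g I₁) {T : ℝ}
    (hT : 1 ≤ T) {p a l : ℝ} (hl : 0 < l) :
    slab T {q | l < ‖ext1 φ g q.1 q.2‖} * ENNReal.ofReal (l ^ (p - 1)) ≤
      ∫⁻ ξ, ENNReal.ofReal
        (Phi p a (8 * T) (16 * (Real.exp π * Lc c T)) l ‖g ξ‖) ∂I₁ := by
  have hT0 : 0 < T := one_pos.trans_le hT
  have hφm := h.differentiable.continuous.measurable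
  set S : Set ℝ := {ξ | a * l < ‖g ξ‖} with hS
  have hSm : MeasurableSet S := measurableSet_lt measurable_const hgm.norm
  set g₁ := S.indicator g with hg₁
  set g₂ := Sᶜ.indicator g with hg₂
  have h1 : Integrable g₁ I₁ := hg.indicator hSm
  have h2 : Integrable g₂ I₁ := hg.indicator hSm.compl
  have hsplit : ∀ t x, ext1 φ g t x = ext1 φ g₁ t x + ext1 φ g₂ t x := fun t x => by
    rw [← ext1_add hφm h1 h2]
    congr 1
    exact (indicator_self_add_compl S g).symm
  set u : ℝ≥0∞ := ENNReal.ofReal (l / 2) with hu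
  have hu0 : u ≠ 0 := (ENNReal.ofReal_pos.mpr (half_pos hl)).ne'
  have hut : u ≠ ⊤ := ENNReal.ofReal_ne_top
  have hsub : {q : ℝ × ℝ | l < ‖ext1 φ g q.1 q.2‖} ⊆
      {q | u ^ 2 ≤ ‖ext1 φ g₁ q.1 q.2‖ₑ ^ 2} ∪ {q | u ^ 4 ≤ ‖ext1 φ g₂ q.1 q.2‖ₑ ^ 4} := by
    intro q hq
    rw [mem_ofPred_eq, hsplit] at hq
    have h3 := hq.trans_le (norm_add_le _ _)
    rcases le_or_gt (l / 2) ‖ext1 φ g₁ q.1 q.2‖ with h4 | h4
    · left
      rw [mem_ofPred_eq]
      refine pow_le_pow_left' (M := ℝ≥0∞) ?_ 2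
      rw [hu, ← ofReal_norm]; exact ENNReal.ofReal_le_ofReal h4
    · right
      rw [mem_ofPred_eq]
      refine pow_le_pow_left' (M := ℝ≥0∞) ?_ 4
      rw [hu, ← ofReal_norm]; exact ENNReal.ofReal_le_ofReal (by linarith)
  have hm1 := (continuous_ext1 hφm h1).measurable.enorm.pow_const 2
  have hm2 := (continuous_ext1 hφm h2).measurable.enorm.pow_const 4
  have b1 : slab T {q | u ^ 2 ≤ ‖ext1 φ g₁ q.1 q.2‖ₑ ^ 2} ≤
      ENNReal.ofReal (2 * T) * (∫⁻ ξ, ‖g₁ ξ‖ₑ ^ 2 ∂I₁) / u ^ 2 :=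
    (meas_ge_le_lintegral_div hm1.aemeasurable (pow_ne_zero _ hu0) (ENNReal.pow_ne_top hut)).trans
      (ENNReal.div_le_div_right (l2_slab h h1 T) _)
  have b2 : slab T {q | u ^ 4 ≤ ‖ext1 φ g₂ q.1 q.2‖ₑ ^ 4} ≤
      ENNReal.ofReal (Real.exp π * Lc c T) * (∫⁻ ξ, ‖g₂ ξ‖ₑ ^ 4 ∂I₁) / u ^ 4 :=
    (meas_ge_le_lintegral_div hm2.aemeasurable (pow_ne_zero _ hu0) (ENNReal.pow_ne_top hut)).trans
      (ENNReal.div_le_div_right (l4_slab h h2 hT) _)
  refine (mul_le_mul_of_nonneg_right
    ((measure_mono hsub).trans ((measure_union_le _ _).trans (add_le_add b1 b2))) zero_le).trans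
    (le_of_eq ?_)
  have hlp : 0 < l ^ (p - 1) := Real.rpow_pos_of_pos hl _
  have hC4 : 0 ≤ Real.exp π * Lc c T := by
    have := h.pos
    have := Real.log_nonneg hT
    unfold Lc; positivity
  simp only [div_eq_mul_inv, add_mul, mul_assoc]
  rw [← lintegral_mul_const _ ((hgm.indicator hSm).enorm.pow_const 2),
    ← lintegral_mul_const _ ((hgm.indicator hSm.compl).enorm.pow_const 4),
    ← lintegral_const_mul' _ _ ENNReal.ofReal_ne_top,
    ← lintegral_const_mul' _ _ ENNReal.ofReal_ne_top,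
    ← lintegral_add_left (((hgm.indicator hSm).enorm.pow_const 2).mul_const _ |>.const_mul _)]
  refine lintegral_congr fun ξ => ?_
  by_cases hξ : ξ ∈ S
  · have hlt : a * l < ‖g ξ‖ := hξ
    rw [indicator_of_mem hξ, indicator_of_notMem (notMem_compl_iff.mpr hξ)]
    simp only [Phi, if_pos hlt, enorm_zero, ne_eq, OfNat.ofNat_ne_zero, not_false_eq_true,
      zero_pow, zero_mul, mul_zero, add_zero]
    rw [hu, ← ofReal_norm, ← ENNReal.ofReal_pow (norm_nonneg _),
      ← ENNReal.ofReal_pow (half_pos hl).le, ← ENNReal.ofReal_inv_of_pos (by positivity),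
      ← ENNReal.ofReal_mul (by positivity), ← ENNReal.ofReal_mul (by positivity),
      ← ENNReal.ofReal_mul (by positivity)]
    congr 1
    rw [show l ^ (p - 3) = l ^ (p - 1) / l ^ (2 : ℕ) by
      rw [← Real.rpow_natCast l 2, ← Real.rpow_sub hl]; congr 1; push_cast; ring]
    field_simp
    ring
  · have hlt : ¬ a * l < ‖g ξ‖ := hξ
    rw [indicator_of_notMem hξ, indicator_of_mem (mem_compl hξ)]
    simp only [Phi, if_neg hlt, enorm_zero, ne_eq, OfNat.ofNat_ne_zero, not_false_eq_true,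
      zero_pow, zero_mul, mul_zero, zero_add]
    rw [hu, ← ofReal_norm, ← ENNReal.ofReal_pow (norm_nonneg _),
      ← ENNReal.ofReal_pow (half_pos hl).le, ← ENNReal.ofReal_inv_of_pos (by positivity),
      ← ENNReal.ofReal_mul (by positivity), ← ENNReal.ofReal_mul (by positivity),
      ← ENNReal.ofReal_mul (by positivity)]
    congr 1
    rw [show l ^ (p - 5) = l ^ (p - 1) / l ^ (4 : ℕ) by
      rw [← Real.rpow_natCast l 4, ← Real.rpow_sub hl]; congr 1; push_cast; ring]
    field_simp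
    ring

lemma enorm_rpow_eq {E : Type*} [NormedAddCommGroup E] (z : E) {p : ℝ} (hp : 0 ≤ p) :
    ‖z‖ₑ ^ p = ENNReal.ofReal (‖z‖ ^ p) := by
  rw [← ofReal_norm, ENNReal.ofReal_rpow_of_nonneg (norm_nonneg _) hp]

/-- The `Lᵖ` bound on a slab with the loss `T ^ (2 - p / 2 + ε)`. -/
theorem lp_slab (h : Curved c φ) {p ε : ℝ} (hp2 : 2 < p) (hp4 : p < 4) (hε : 0 < ε) :
    ∃ K : ℝ≥0∞, K ≠ ⊤ ∧ ∀ g : ℝ → ℂ, Measurable g → Integrable g I₁ → ∀ T : ℝ, 1 ≤ T →
      ∫⁻ q, ‖ext1 φ g q.1 q.2‖ₑ ^ p ∂slab T ≤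
        K * ENNReal.ofReal (T ^ (2 - p / 2 + ε)) * ∫⁻ ξ, ‖g ξ‖ₑ ^ p ∂I₁ := by
  have hc := h.pos
  set K : ℝ := p * (8 / (p - 2) + 16 * Real.exp π * (4 + 2 / c + 2 / (c * ε)) / (4 - p)) with hK
  refine ⟨ENNReal.ofReal K, ENNReal.ofReal_ne_top, fun g hgm hg T hT => ?_⟩
  have hT0 : 0 < T := one_pos.trans_le hT
  have hp0 : 0 < p := by linarith
  have hL : 0 ≤ Lc c T := by
    have := Real.log_nonneg hT
    unfold Lc; positivity
  set a := T ^ (1 / 2 : ℝ) with ha
  have ha0 : 0 < a := Real.rpow_pos_of_pos hT0 _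
  set A := 8 * T with hA
  set B := 16 * (Real.exp π * Lc c T) with hB
  set M := p * (A * a ^ (2 - p) / (p - 2) + B * a ^ (4 - p) / (4 - p)) with hM
  have hmeas : Measurable fun q : ℝ × ℝ => ‖ext1 φ g q.1 q.2‖ :=
    (continuous_ext1 h.differentiable.continuous.measurable hg).measurable.norm
  have hswap : Measurable (Function.uncurry fun l ξ => ENNReal.ofReal (Phi p a A B l ‖g ξ‖)) := by
    refine ENNReal.measurable_ofReal.comp ?_
    unfold Phi
    exact Measurable.ite (measurableSet_lt (by fun_prop) (by fun_prop)) (by fun_prop) (by fun_prop)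
  calc ∫⁻ q, ‖ext1 φ g q.1 q.2‖ₑ ^ p ∂slab T
      = ∫⁻ q, ENNReal.ofReal (‖ext1 φ g q.1 q.2‖ ^ p) ∂slab T :=
        lintegral_congr fun q => enorm_rpow_eq _ hp0.le
    _ = ENNReal.ofReal p * ∫⁻ l in Ioi 0,
          slab T {q | l < ‖ext1 φ g q.1 q.2‖} * ENNReal.ofReal (l ^ (p - 1)) :=
        lintegral_rpow_eq_lintegral_meas_lt_mul _ (Eventually.of_forall fun q => norm_nonneg _)
          hmeas.aemeasurable hp0
    _ ≤ ENNReal.ofReal p *
          ∫⁻ l in Ioi 0, ∫⁻ ξ, ENNReal.ofReal (Phi p a A B l ‖g ξ‖) ∂I₁ := by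
        refine mul_le_mul_of_nonneg_left (setLIntegral_mono' measurableSet_Ioi fun l hl => ?_)
          zero_le
        exact level_bound h hgm hg hT hl
    _ = ENNReal.ofReal p *
          ∫⁻ ξ, (∫⁻ l in Ioi 0, ENNReal.ofReal (Phi p a A B l ‖g ξ‖)) ∂I₁ := by
        rw [lintegral_lintegral_swap hswap.aemeasurable]
    _ ≤ ENNReal.ofReal p * ∫⁻ ξ, ENNReal.ofReal
          ((A * a ^ (2 - p) / (p - 2) + B * a ^ (4 - p) / (4 - p)) * ‖g ξ‖ ^ p) ∂I₁ :=
        mul_le_mul_of_nonneg_left (lintegral_mono fun ξ =>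
          integral_Phi hp2 hp4 ha0 (by positivity) (by positivity) (norm_nonneg _)) zero_le
    _ = ENNReal.ofReal M * ∫⁻ ξ, ‖g ξ‖ₑ ^ p ∂I₁ := by
        rw [← lintegral_const_mul' _ _ ENNReal.ofReal_ne_top,
          ← lintegral_const_mul' _ _ ENNReal.ofReal_ne_top]
        refine lintegral_congr fun ξ => ?_
        rw [enorm_rpow_eq _ hp0.le, ← ENNReal.ofReal_mul hp0.le,
          ← ENNReal.ofReal_mul' (Real.rpow_nonneg (norm_nonneg _) _), hM]
        congr 1; ring
    _ ≤ _ := by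
        refine mul_le_mul_of_nonneg_right ?_ zero_le
        rw [← ENNReal.ofReal_mul' (Real.rpow_nonneg hT0.le _)]
        refine ENNReal.ofReal_le_ofReal ?_
        set e := 2 - p / 2 with he
        have hpe : T ^ e ≤ T ^ (e + ε) := Real.rpow_le_rpow_of_exponent_le hT (by linarith)
        have h1 : a ^ (4 - p) = T ^ e := by
          rw [ha, ← Real.rpow_mul hT0.le]; congr 1; rw [he]; ring
        have h2 : T * a ^ (2 - p) = T ^ e := by
          rw [ha, ← Real.rpow_mul hT0.le]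
          nth_rewrite 1 [← Real.rpow_one T]
          rw [← Real.rpow_add hT0]; congr 1; rw [he]; ring
        have hTe : 1 ≤ T ^ ε := Real.one_le_rpow hT hε.le
        have hlog := Real.log_le_rpow_div hT0.le hε
        have hLb : Lc c T ≤ (4 + 2 / c + 2 / (c * ε)) * T ^ ε := by
          unfold Lc
          have h3 : 2 * Real.log T / c ≤ 2 / (c * ε) * T ^ ε := by
            rw [div_le_iff₀ hc]
            refine (mul_le_mul_of_nonneg_left hlog zero_le_two).trans (le_of_eq ?_)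
            field_simp
          have h4 : 4 + 2 / c ≤ (4 + 2 / c) * T ^ ε := le_mul_of_one_le_right (by positivity) hTe
          linarith
        have i1 : 0 < p - 2 := by linarith
        have i2 : 0 < 4 - p := by linarith
        calc M = p * (8 * (T * a ^ (2 - p)) / (p - 2) +
              16 * Real.exp π * (Lc c T * a ^ (4 - p)) / (4 - p)) := by
              rw [hM, hA, hB]; ring
          _ ≤ p * (8 * T ^ (e + ε) / (p - 2) +
              16 * Real.exp π * ((4 + 2 / c + 2 / (c * ε)) * T ^ (e + ε)) / (4 - p)) := by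
              rw [h1, h2]
              have h5 : Lc c T * T ^ e ≤ (4 + 2 / c + 2 / (c * ε)) * T ^ (e + ε) := by
                calc Lc c T * T ^ e ≤ (4 + 2 / c + 2 / (c * ε)) * T ^ ε * T ^ e :=
                      mul_le_mul_of_nonneg_right hLb (Real.rpow_nonneg hT0.le _)
                  _ = _ := by rw [mul_assoc, ← Real.rpow_add hT0, add_comm ε e]
              refine mul_le_mul_of_nonneg_left (add_le_add ?_ ?_) hp0.le
              · exact div_le_div_of_nonneg_right (mul_le_mul_of_nonneg_left hpe (by norm_num)) i1.le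
              · exact div_le_div_of_nonneg_right
                  (mul_le_mul_of_nonneg_left h5 (by positivity)) i2.le
          _ = K * T ^ (e + ε) := by rw [hK]; ring

end Vale.Agent.P122.Strip
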