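import Vale.Agent.P122.Strip.Basic

/-!
# P122: the logarithmic `L⁴` bound for curved extension in the plane
-/

namespace Vale.Agent.P122.Strip

open MeasureTheory Real Set Filter
open scoped ENNReal Topology

/-- A `C²` function with second derivative at least `c` on `[-1, 1]`. -/
structure Curved (c : ℝ) (φ : ℝ → ℝ) : Prop where
  pos : 0 < c
  smooth : ContDiff ℝ 2 φ
  convex : ∀ u ∈ Icc (-1 : ℝ) 1, c ≤ deriv (deriv φ) u

variable {c : ℝ} {φ : ℝ → ℝ}

lemma Curved.differentiable (h : Curved c φ) : Differentiable ℝ φ :=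
  h.smooth.differentiable (by norm_num)

lemma Curved.smooth_deriv (h : Curved c φ) : ContDiff ℝ 1 (deriv φ) :=
  ContDiff.deriv' (show ContDiff ℝ (1 + 1) φ from h.smooth)

lemma Curved.differentiable_deriv (h : Curved c φ) : Differentiable ℝ (deriv φ) :=
  h.smooth_deriv.differentiable (by norm_num)

lemma Curved.continuous_deriv2 (h : Curved c φ) : Continuous (deriv (deriv φ)) :=
  (ContDiff.deriv' (show ContDiff ℝ (0 + 1) (deriv φ) from h.smooth_deriv)).continuous

lemma Curved.slope (h : Curved c φ) {a b : ℝ} (ha : a ∈ Icc (-1 : ℝ) 1) (hb : b ∈ Icc (-1 : ℝ) 1)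
    (hab : a ≤ b) : c * (b - a) ≤ deriv φ b - deriv φ a :=
  (convex_Icc (-1 : ℝ) 1).mul_sub_le_image_sub_of_le_deriv
    h.differentiable_deriv.continuous.continuousOn h.differentiable_deriv.differentiableOn
    (fun x hx => h.convex x (interior_subset hx)) a ha b hb hab

/-- The one-variable integral of the time kernel along a sum line. -/
lemma line_bound (h : Curved c φ) {T : ℝ} (hT : 0 < T) (k z : ℝ) :
    ∫⁻ b, (Icc (-1 : ℝ) 1).indicator (fun _ => (1 : ℝ≥0∞)) (b + k) *
        ENNReal.ofReal (gk T (φ (b + k) - φ b - z)) ∂I₁ ≤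
      if |k| ≤ 1 / T then ENNReal.ofReal (2 * T) else ENNReal.ofReal (1 / (c * |k|)) := by
  have hc := h.pos
  have hle1 : ∀ y : ℝ, (Icc (-1 : ℝ) 1).indicator (fun _ => (1 : ℝ≥0∞)) y ≤ 1 := fun y =>
    indicator_le_self' (fun _ _ => zero_le) y
  split
  · calc ∫⁻ b, (Icc (-1 : ℝ) 1).indicator (fun _ => (1 : ℝ≥0∞)) (b + k) *
          ENNReal.ofReal (gk T (φ (b + k) - φ b - z)) ∂I₁
        ≤ ∫⁻ _b, ENNReal.ofReal T ∂I₁ := lintegral_mono fun b =>
          (mul_le_of_le_one_left zero_le (hle1 _)).trans (ENNReal.ofReal_le_ofReal (gk_le hT.le _))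
      _ = ENNReal.ofReal (2 * T) := by
          rw [lintegral_const, I₁, Measure.restrict_apply_univ, Real.volume_Icc,
            ← ENNReal.ofReal_mul hT.le]
          norm_num [mul_comm]
  · rename_i hk
    have hk0 : k ≠ 0 := by
      intro h0; apply hk; rw [h0, abs_zero]; positivity
    have hck : 0 < c * |k| := mul_pos hc (abs_pos.mpr hk0)
    set J : Set ℝ := Icc (max (-1) (-1 - k)) (min 1 (1 - k)) with hJ
    have hmem : ∀ b, b ∈ J ↔ b ∈ Icc (-1 : ℝ) 1 ∧ b + k ∈ Icc (-1 : ℝ) 1 := fun b => by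
      simp only [hJ, mem_Icc, max_le_iff, le_min_iff]
      constructor <;> intro hh <;> refine ⟨⟨?_, ?_⟩, ⟨?_, ?_⟩⟩ <;>
        linarith [hh.1.1, hh.1.2, hh.2.1, hh.2.2]
    set F : ℝ → ℝ := fun b => φ (b + k) - φ b with hF
    set F' : ℝ → ℝ := fun b => deriv φ (b + k) - deriv φ b with hF'
    have hder : ∀ b, HasDerivAt F (F' b) b := fun b =>
      ((h.differentiable (b + k)).hasDerivAt.comp_add_const b k).sub
        (h.differentiable b).hasDerivAt
    have hge : ∀ b ∈ J, c * |k| ≤ |F' b| ∧ 0 ≤ k * F' b := by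
      intro b hb
      obtain ⟨h1, h2⟩ := (hmem b).mp hb
      rcases le_total 0 k with hk' | hk'
      · have hs := h.slope h1 h2 (by linarith)
        simp only [add_sub_cancel_left] at hs
        have : 0 ≤ F' b := by
          simp only [hF']
          nlinarith
        rw [abs_of_nonneg hk', abs_of_nonneg this]
        exact ⟨hs, mul_nonneg hk' this⟩
      · have hs := h.slope h2 h1 (by linarith)
        have : F' b ≤ 0 := by
          simp only [hF']
          nlinarith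
        rw [abs_of_nonpos hk', abs_of_nonpos this]
        refine ⟨?_, mul_nonneg_of_nonpos_of_nonpos hk' this⟩
        simp only [hF']
        nlinarith
    have hinj : InjOn F J := by
      have hmono : StrictMonoOn (fun b => k * F b) J := by
        refine strictMonoOn_of_hasDerivWithinAt_pos (convex_Icc _ _)
          (fun b _ => ((hder b).const_mul k).continuousAt.continuousWithinAt)
          (fun b _ => ((hder b).const_mul k).hasDerivWithinAt) fun b hb => ?_
        obtain ⟨h1, h2⟩ := hge b (interior_subset hb)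
        refine h2.lt_of_ne fun h3 => ?_
        rcases mul_eq_zero.mp h3.symm with h4 | h4
        · exact hk0 h4
        · rw [h4, abs_zero] at h1; linarith
      intro x hx y hy hxy
      exact hmono.injOn hx hy (by simp only [hxy])
    have himg := lintegral_image_eq_lintegral_abs_deriv_mul (s := J) measurableSet_Icc
      (fun b _ => (hder b).hasDerivWithinAt) hinj fun y => ENNReal.ofReal (gk T (y - z))
    have hone : ∫⁻ y in F '' J, ENNReal.ofReal (gk T (y - z)) ≤ 1 := by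
      refine (setLIntegral_le_lintegral _ _).trans (le_of_eq ?_)
      rw [← lintegral_gk hT]
      exact lintegral_sub_right_eq_self (fun a => ENNReal.ofReal (gk T a)) z
    rw [himg] at hone
    calc ∫⁻ b, (Icc (-1 : ℝ) 1).indicator (fun _ => (1 : ℝ≥0∞)) (b + k) *
          ENNReal.ofReal (gk T (φ (b + k) - φ b - z)) ∂I₁
        = ∫⁻ b in J, ENNReal.ofReal (gk T (F b - z)) := by
          rw [I₁, ← lintegral_indicator measurableSet_Icc, ← lintegral_indicator measurableSet_Icc]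
          congr 1; funext b
          by_cases hb : b ∈ J
          · obtain ⟨h1, h2⟩ := (hmem b).mp hb
            rw [indicator_of_mem hb, indicator_of_mem h1, indicator_of_mem h2, one_mul]
          · rw [indicator_of_notMem hb]
            by_cases h1 : b ∈ Icc (-1 : ℝ) 1
            · have h2 : b + k ∉ Icc (-1 : ℝ) 1 := fun h2 => hb ((hmem b).mpr ⟨h1, h2⟩)
              rw [indicator_of_mem h1, indicator_of_notMem h2, zero_mul]
            · rw [indicator_of_notMem h1]
      _ ≤ ∫⁻ b in J, ENNReal.ofReal (1 / (c * |k|)) *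
            (ENNReal.ofReal |F' b| * ENNReal.ofReal (gk T (F b - z))) := by
          refine setLIntegral_mono' measurableSet_Icc fun b hb => ?_
          rw [← mul_assoc, ← ENNReal.ofReal_mul (by positivity)]
          refine le_mul_of_one_le_left zero_le ?_
          rw [← ENNReal.ofReal_one]
          refine ENNReal.ofReal_le_ofReal ?_
          rw [one_div, ← div_eq_inv_mul, le_div_iff₀ hck, one_mul]
          exact (hge b hb).1
      _ ≤ ENNReal.ofReal (1 / (c * |k|)) := by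
          rw [lintegral_const_mul' _ _ ENNReal.ofReal_ne_top]
          exact mul_le_of_le_one_right zero_le hone

/-- The Schur bound constant. -/
noncomputable def Lc (c T : ℝ) : ℝ := 4 + 2 / c + 2 * Real.log T / c

lemma shift_bound (hc : 0 < c) {T : ℝ} (hT : 1 ≤ T) (d : ℝ) :
    ∫⁻ y, (if |y + d| ≤ 1 / T then ENNReal.ofReal (2 * T)
        else ENNReal.ofReal (1 / (c * |y + d|))) ∂I₁ ≤ ENNReal.ofReal (Lc c T) := by
  have hT0 : 0 < T := one_pos.trans_le hT
  set A : ℝ → ℝ≥0∞ := (Icc (-(1 / T)) (1 / T)).indicator fun _ => ENNReal.ofReal (2 * T) with hA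
  set B : ℝ → ℝ≥0∞ := fun k => (Icc (1 / T) 1).indicator (fun k => ENNReal.ofReal (1 / (c * k))) k
    with hB
  have hle : ∀ k : ℝ, (if |k| ≤ 1 / T then ENNReal.ofReal (2 * T)
      else ENNReal.ofReal (1 / (c * |k|))) ≤ A k + (B k + (B (-k) + ENNReal.ofReal (1 / c))) := by
    intro k
    split
    · rename_i hk
      exact le_add_right (le_of_eq (by rw [hA, indicator_of_mem (show k ∈ Icc (-(1 / T)) (1 / T) from abs_le.mp hk)]))
    · rename_i hk
      push Not at hk
      refine le_add_left ?_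
      rcases le_or_gt |k| 1 with h1 | h1
      · rcases le_total 0 k with hk0 | hk0
        · rw [abs_of_nonneg hk0] at hk h1 ⊢
          exact le_add_right (le_of_eq (by
            simp only [hB]; rw [indicator_of_mem (show k ∈ Icc (1 / T) 1 from ⟨hk.le, h1⟩)]))
        · rw [abs_of_nonpos hk0] at hk h1 ⊢
          exact le_add_left (le_add_right (le_of_eq (by
            simp only [hB]; rw [indicator_of_mem (show -k ∈ Icc (1 / T) 1 from ⟨hk.le, h1⟩)])))
      · refine le_add_left (le_add_left (ENNReal.ofReal_le_ofReal ?_))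
        exact one_div_le_one_div_of_le hc (le_mul_of_one_le_right hc.le h1.le)
  have hAm : Measurable A := measurable_const.indicator measurableSet_Icc
  have hBm : Measurable B := by
    simp only [hB]
    exact (show Measurable fun k : ℝ => ENNReal.ofReal (1 / (c * k)) by fun_prop).indicator
      measurableSet_Icc
  have hBint : ∫⁻ k, B k = ENNReal.ofReal (Real.log T / c) := by
    simp only [hB]
    rw [lintegral_indicator measurableSet_Icc,
      ← ofReal_integral_eq_lintegral_ofReal]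
    · congr 1
      rw [integral_Icc_eq_integral_Ioc, ← intervalIntegral.integral_of_le
        ((div_le_one hT0).mpr hT)]
      simp_rw [one_div, mul_inv]
      rw [intervalIntegral.integral_const_mul, integral_inv_of_pos (inv_pos.mpr hT0) one_pos,
        one_div, inv_inv]
      ring
    · refine ContinuousOn.integrableOn_Icc (ContinuousOn.div continuousOn_const (by fun_prop) ?_)
      intro k hk
      have : 0 < k := (one_div_pos.mpr hT0).trans_le hk.1
      positivity
    · refine (ae_restrict_iff' measurableSet_Icc).mpr (Eventually.of_forall fun k hk => ?_)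
      have : 0 < k := (one_div_pos.mpr hT0).trans_le hk.1
      positivity
  calc ∫⁻ y, (if |y + d| ≤ 1 / T then ENNReal.ofReal (2 * T)
        else ENNReal.ofReal (1 / (c * |y + d|))) ∂I₁
      ≤ ∫⁻ y, (A (y + d) + (B (y + d) + (B (-(y + d)) + ENNReal.ofReal (1 / c)))) ∂I₁ :=
        lintegral_mono fun y => hle _
    _ = ∫⁻ y, A (y + d) ∂I₁ + (∫⁻ y, B (y + d) ∂I₁ + (∫⁻ y, B (-(y + d)) ∂I₁ +
          ∫⁻ _y, ENNReal.ofReal (1 / c) ∂I₁)) := by
        have m1 : Measurable fun y => A (y + d) := hAm.comp (measurable_id.add_const d)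
        have m2 : Measurable fun y => B (y + d) := hBm.comp (measurable_id.add_const d)
        have m3 : Measurable fun y => B (-(y + d)) := hBm.comp (measurable_id.add_const d).neg
        rw [lintegral_add_left m1, lintegral_add_left m2, lintegral_add_left m3]
    _ ≤ ENNReal.ofReal 4 + (ENNReal.ofReal (Real.log T / c) + (ENNReal.ofReal (Real.log T / c) +
          ENNReal.ofReal (2 / c))) := by
        refine add_le_add ?_ (add_le_add ?_ (add_le_add ?_ ?_))
        · refine (setLIntegral_le_lintegral _ _).trans (le_of_eq ?_)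
          rw [lintegral_add_right_eq_self (fun y => A y) d]
          simp only [hA]
          rw [lintegral_indicator measurableSet_Icc, setLIntegral_const, Real.volume_Icc,
            ← ENNReal.ofReal_mul (by positivity)]
          congr 1; field_simp; ring
        · refine (setLIntegral_le_lintegral _ _).trans (le_of_eq ?_)
          rw [lintegral_add_right_eq_self (fun y => B y) d, hBint]
        · refine (setLIntegral_le_lintegral _ _).trans (le_of_eq ?_)
          rw [lintegral_add_right_eq_self (fun y => B (-y)) d, ← hBint]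
          exact lintegral_neg_eq_self B
        · rw [lintegral_const, I₁, Measure.restrict_apply_univ, Real.volume_Icc,
            ← ENNReal.ofReal_mul (by positivity)]
          exact le_of_eq (by congr 1; ring)
    _ = _ := by
        have hl : 0 ≤ Real.log T := Real.log_nonneg hT
        rw [← ENNReal.ofReal_add (by positivity) (by positivity),
          ← ENNReal.ofReal_add (by positivity) (by positivity),
          ← ENNReal.ofReal_add (by positivity) (by positivity), Lc]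
        congr 1; ring

/-- The kernel after the change of variable to the sum. -/
noncomputable def Pk (φ : ℝ → ℝ) (R T ξ₁ ξ₃ ξ₄ s : ℝ) : ℝ≥0∞ :=
  ENNReal.ofReal (gk R s) * ((Icc (-1 : ℝ) 1).indicator (fun _ => (1 : ℝ≥0∞))
    (ξ₄ + (ξ₃ - ξ₁ + s)) *
      ENNReal.ofReal (gk T (φ (ξ₄ + (ξ₃ - ξ₁ + s)) - φ ξ₄ - (φ ξ₃ - φ ξ₁))))

lemma measurable_Pk {φ : ℝ → ℝ} (hφ : Continuous φ) (R T ξ₁ ξ₃ : ℝ) :
    Measurable (Function.uncurry (Pk φ R T ξ₁ ξ₃)) := by
  have h1 : Measurable fun p : ℝ × ℝ => p.1 + (ξ₃ - ξ₁ + p.2) := by fun_prop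
  refine Measurable.mul ((continuous_gk R).measurable.comp measurable_snd).ennreal_ofReal
    (Measurable.mul ((measurable_const.indicator measurableSet_Icc).comp h1) ?_)
  exact ((continuous_gk T).measurable.comp
    (((hφ.measurable.comp h1).sub (hφ.measurable.comp measurable_fst)).sub_const _)).ennreal_ofReal

lemma subst_Pk (φ : ℝ → ℝ) (R T ξ₁ ξ₃ ξ₄ : ℝ) :
    ∫⁻ ξ₂, ENNReal.ofReal (gk R (ξ₁ + ξ₂ - (ξ₃ + ξ₄))) *
      ENNReal.ofReal (gk T (φ ξ₁ + φ ξ₂ - (φ ξ₃ + φ ξ₄))) ∂I₁ =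
      ∫⁻ s, Pk φ R T ξ₁ ξ₃ ξ₄ s := by
  rw [I₁, ← lintegral_indicator measurableSet_Icc]
  conv_lhs => rw [← lintegral_add_right_eq_self _ (ξ₃ + ξ₄ - ξ₁)]
  refine lintegral_congr fun s => ?_
  rw [Pk, show ξ₄ + (ξ₃ - ξ₁ + s) = s + (ξ₃ + ξ₄ - ξ₁) by ring]
  by_cases hs : s + (ξ₃ + ξ₄ - ξ₁) ∈ Icc (-1 : ℝ) 1
  · rw [indicator_of_mem hs, indicator_of_mem hs, one_mul,
      show ξ₁ + (s + (ξ₃ + ξ₄ - ξ₁)) - (ξ₃ + ξ₄) = s by ring,
      show φ ξ₁ + φ (s + (ξ₃ + ξ₄ - ξ₁)) - (φ ξ₃ + φ ξ₄) =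
        φ (s + (ξ₃ + ξ₄ - ξ₁)) - φ ξ₄ - (φ ξ₃ - φ ξ₁) by ring]
  · rw [indicator_of_notMem hs, indicator_of_notMem hs, zero_mul, mul_zero]

lemma inner_Pk (h : Curved c φ) (R : ℝ) {T : ℝ} (hT : 0 < T) (ξ₁ ξ₃ s : ℝ) :
    ∫⁻ ξ₄, Pk φ R T ξ₁ ξ₃ ξ₄ s ∂I₁ ≤ ENNReal.ofReal (gk R s) *
      (if |ξ₃ + (s - ξ₁)| ≤ 1 / T then ENNReal.ofReal (2 * T)
        else ENNReal.ofReal (1 / (c * |ξ₃ + (s - ξ₁)|))) := by
  simp only [Pk]
  rw [lintegral_const_mul' _ _ ENNReal.ofReal_ne_top,
    show ξ₃ + (s - ξ₁) = ξ₃ - ξ₁ + s by ring]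
  exact mul_le_mul_of_nonneg_left (line_bound h hT _ _) zero_le

/-- The Schur bound for the four-point kernel. -/
lemma schur (h : Curved c φ) {R T : ℝ} (hR : 0 < R) (hT : 1 ≤ T) (ξ₁ : ℝ) :
    ∫⁻ ξ₃, ∫⁻ ξ₄, ∫⁻ ξ₂, ENNReal.ofReal (gk R (ξ₁ + ξ₂ - (ξ₃ + ξ₄))) *
        ENNReal.ofReal (gk T (φ ξ₁ + φ ξ₂ - (φ ξ₃ + φ ξ₄))) ∂I₁ ∂I₁ ∂I₁ ≤
      ENNReal.ofReal (Lc c T) := by
  have hT0 : 0 < T := one_pos.trans_le hT
  set F : ℝ → ℝ → ℝ≥0∞ := fun ξ₃ s => ENNReal.ofReal (gk R s) *
    (if |ξ₃ + (s - ξ₁)| ≤ 1 / T then ENNReal.ofReal (2 * T)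
      else ENNReal.ofReal (1 / (c * |ξ₃ + (s - ξ₁)|))) with hF
  have hFm : Measurable (Function.uncurry F) := by
    refine Measurable.mul ((continuous_gk R).measurable.comp measurable_snd).ennreal_ofReal ?_
    exact Measurable.ite (measurableSet_le (by fun_prop) measurable_const)
      measurable_const (by fun_prop)
  calc ∫⁻ ξ₃, ∫⁻ ξ₄, ∫⁻ ξ₂, ENNReal.ofReal (gk R (ξ₁ + ξ₂ - (ξ₃ + ξ₄))) *
        ENNReal.ofReal (gk T (φ ξ₁ + φ ξ₂ - (φ ξ₃ + φ ξ₄))) ∂I₁ ∂I₁ ∂I₁
      = ∫⁻ ξ₃, ∫⁻ s, (∫⁻ ξ₄, Pk φ R T ξ₁ ξ₃ ξ₄ s ∂I₁) ∂volume ∂I₁ := by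
        refine lintegral_congr fun ξ₃ => ?_
        simp only [subst_Pk]
        exact lintegral_lintegral_swap
          (measurable_Pk h.differentiable.continuous R T ξ₁ ξ₃).aemeasurable
    _ ≤ ∫⁻ ξ₃, ∫⁻ s, F ξ₃ s ∂volume ∂I₁ :=
        lintegral_mono fun ξ₃ => lintegral_mono fun s => inner_Pk h R hT0 ξ₁ ξ₃ s
    _ = ∫⁻ s, ∫⁻ ξ₃, F ξ₃ s ∂I₁ := lintegral_lintegral_swap hFm.aemeasurable
    _ ≤ ∫⁻ s, ENNReal.ofReal (gk R s) * ENNReal.ofReal (Lc c T) := by
        refine lintegral_mono fun s => ?_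
        simp only [hF]
        rw [lintegral_const_mul' _ _ ENNReal.ofReal_ne_top]
        exact mul_le_mul_of_nonneg_left (shift_bound h.pos hT _) zero_le
    _ = _ := by rw [lintegral_mul_const' _ _ ENNReal.ofReal_ne_top, lintegral_gk hR, one_mul]

lemma pair_integrable {g : ℝ → ℂ} (hg : Integrable g I₁) :
    Integrable (fun p : ℝ × ℝ => g p.1 * g p.2) (I₁.prod I₁) := hg.mul_prod hg

/-- Reduction of a symmetric quadrilinear form to its diagonal. -/
lemma bilinear_symm {a : ℝ → ℝ≥0∞} (ha : AEMeasurable a I₁) {P : ℝ × ℝ → ℝ≥0∞}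
    {K : (ℝ × ℝ) × (ℝ × ℝ) → ℝ≥0∞} (hK : Measurable K) (hK1 : ∀ w, K w.swap = K w)
    (hK2 : ∀ w, K (w.1.swap, w.2) = K w) (hP : ∀ p, P p = a p.1 * a p.2) :
    ∫⁻ w, P w.1 * P w.2 * K w ∂((I₁.prod I₁).prod (I₁.prod I₁)) ≤
      ∫⁻ w, a w.1.1 ^ 4 * K w ∂((I₁.prod I₁).prod (I₁.prod I₁)) := by
  set ν := I₁.prod I₁ with hν
  have amgm : ∀ x y : ℝ≥0∞, x * y ≤ 2⁻¹ * (x ^ 2 + y ^ 2) := by
    intro x y
    rcases eq_or_ne x ⊤ with rfl | hx
    · simp
    rcases eq_or_ne y ⊤ with rfl | hy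
    · simp
    lift x to NNReal using hx
    lift y to NNReal using hy
    rw [show (2 : ℝ≥0∞)⁻¹ = ((2⁻¹ : NNReal) : ℝ≥0∞) by simp]
    norm_cast
    rw [← NNReal.coe_le_coe]
    push_cast
    nlinarith [sq_nonneg ((x : ℝ) - y)]
  have half : ∀ X : ℝ≥0∞, 2⁻¹ * (X + X) = X := fun X => by
    rw [← two_mul, ← mul_assoc, ENNReal.inv_mul_cancel (by norm_num) (by norm_num), one_mul]
  have hPm : AEMeasurable P ν := by
    rw [show P = fun p => a p.1 * a p.2 from funext hP]
    exact (ha.comp_fst).mul (ha.comp_snd)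
  have step1 : ∫⁻ w, P w.1 * P w.2 * K w ∂(ν.prod ν) ≤ ∫⁻ w, P w.1 ^ 2 * K w ∂(ν.prod ν) := by
    have hm : AEMeasurable (fun w : (ℝ × ℝ) × (ℝ × ℝ) => P w.1 ^ 2 * K w) (ν.prod ν) :=
      (hPm.comp_fst.pow_const 2).mul hK.aemeasurable
    calc ∫⁻ w, P w.1 * P w.2 * K w ∂(ν.prod ν)
        ≤ ∫⁻ w, 2⁻¹ * (P w.1 ^ 2 * K w + P w.2 ^ 2 * K w) ∂(ν.prod ν) := by
          refine lintegral_mono fun w => ?_
          rw [← add_mul, ← mul_assoc]
          exact mul_le_mul_of_nonneg_right (amgm _ _) zero_le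
      _ = _ := by
          rw [lintegral_const_mul' _ _ (by norm_num), lintegral_add_left' hm]
          have : ∫⁻ w, P w.2 ^ 2 * K w ∂(ν.prod ν) = ∫⁻ w, P w.1 ^ 2 * K w ∂(ν.prod ν) := by
            rw [← lintegral_prod_swap]
            refine lintegral_congr fun w => ?_
            rw [hK1, Prod.snd_swap]
          rw [this, half]
  refine step1.trans ?_
  have hm2 : AEMeasurable (fun w : (ℝ × ℝ) × (ℝ × ℝ) => a w.1.1 ^ 4 * K w) (ν.prod ν) :=
    ((ha.comp_fst).comp_fst.pow_const 4).mul hK.aemeasurable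
  calc ∫⁻ w, P w.1 ^ 2 * K w ∂(ν.prod ν)
      ≤ ∫⁻ w, 2⁻¹ * (a w.1.1 ^ 4 * K w + a w.1.2 ^ 4 * K w) ∂(ν.prod ν) := by
        refine lintegral_mono fun w => ?_
        rw [← add_mul, ← mul_assoc, hP, mul_pow]
        refine mul_le_mul_of_nonneg_right ((amgm _ _).trans (le_of_eq ?_)) zero_le
        simp only [← pow_mul]
    _ = _ := by
        rw [lintegral_const_mul' _ _ (by norm_num), lintegral_add_left' hm2]
        have hpres : MeasurePreserving (Prod.map Prod.swap id : (ℝ × ℝ) × (ℝ × ℝ) → _)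
            (ν.prod ν) (ν.prod ν) :=
          (Measure.measurePreserving_swap (μ := I₁) (ν := I₁)).prod (MeasurePreserving.id ν)
        have : ∫⁻ w, a w.1.2 ^ 4 * K w ∂(ν.prod ν) = ∫⁻ w, a w.1.1 ^ 4 * K w ∂(ν.prod ν) := by
          rw [← hpres.lintegral_comp_emb
            ((MeasurableEquiv.prodComm).prodCongr (MeasurableEquiv.refl (ℝ × ℝ))).measurableEmbedding]
          refine lintegral_congr fun w => ?_
          change a w.1.1 ^ 4 * K (w.1.swap, w.2) = _
          rw [hK2]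
        rw [this, half]

lemma four_point (h : Curved c φ) {g : ℝ → ℂ} (hg : Integrable g I₁) {R T : ℝ}
    (hR : 0 < R) (hT : 1 ≤ T) :
    ∫⁻ t, ENNReal.ofReal (gw T t) *
        ∫⁻ x, ENNReal.ofReal (gw R x) * ‖ext1 φ g t x‖ₑ ^ 4 ≤
      ENNReal.ofReal (Lc c T) * ∫⁻ ξ, ‖g ξ‖ₑ ^ 4 ∂I₁ := by
  have hT0 : 0 < T := one_pos.trans_le hT
  have hφc : Continuous φ := h.differentiable.continuous
  set ν : Measure (ℝ × ℝ) := I₁.prod I₁ with hν
  set g2 : ℝ × ℝ → ℂ := fun p => g p.1 * g p.2 with hg2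
  set s : (ℝ × ℝ) × (ℝ × ℝ) → ℝ := fun w => w.1.1 + w.1.2 - (w.2.1 + w.2.2) with hs
  set D : (ℝ × ℝ) × (ℝ × ℝ) → ℝ := fun w => φ w.1.1 + φ w.1.2 - (φ w.2.1 + φ w.2.2) with hD
  set G : (ℝ × ℝ) × (ℝ × ℝ) → ℂ := fun w => g2 w.1 * (starRingEnd ℂ) (g2 w.2) with hG
  have hGi : Integrable G (ν.prod ν) := (pair_integrable hg).mul_prod
    (Complex.conjCLE.toContinuousLinearMap.integrable_comp (pair_integrable hg))
  have hsm : Measurable s := by simp only [hs]; fun_prop
  have hDm : Measurable D := by simp only [hD]; fun_prop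
  set N : ℝ := ∫ ξ, ‖g ξ‖ ∂I₁ with hN
  have hbound : ∀ t x, ‖ext1 φ g t x‖ ≤ N := fun t x => by
    refine (norm_integral_le_integral_norm _).trans (le_of_eq ?_)
    simp only [norm_mul, norm_ee, mul_one, hN]
  have hpow : ∀ t x, ((‖ext1 φ g t x‖ ^ 4 : ℝ) : ℂ) =
      ∫ w, G w * ee (t * D w) * ee (x * s w) ∂(ν.prod ν) := by
    intro t x
    have hsq : ext1 φ g t x * ext1 φ g t x =
        ∫ p, g2 p * ee (x * (p.1 + p.2) + t * (φ p.1 + φ p.2)) ∂ν := by
      rw [ext1, ← integral_prod_mul]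
      refine integral_congr_ae (Eventually.of_forall fun p => ?_)
      beta_reduce
      have he : ee (x * (p.1 + p.2) + t * (φ p.1 + φ p.2)) =
          ee (x * p.1 + t * φ p.1) * ee (x * p.2 + t * φ p.2) := by
        rw [← ee_add]; ring_nf
      simp only [hg2, he]
      ring
    rw [show ‖ext1 φ g t x‖ ^ 4 = ‖ext1 φ g t x * ext1 φ g t x‖ ^ 2 by rw [norm_mul]; ring, hsq,
      sq_norm_sup_integral]
    refine integral_congr_ae (Eventually.of_forall fun w => ?_)
    beta_reduce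
    simp only [hG, hD, hs]
    rw [mul_assoc _ (ee _) (ee _), ← ee_add]
    ring_nf
  have hGt : ∀ t : ℝ, Integrable (fun w => G w * ee (t * D w)) (ν.prod ν) := fun t =>
    hGi.mul_bdd (c := 1) (continuous_ee.measurable.comp (hDm.const_mul t)).aestronglyMeasurable
      (Eventually.of_forall fun w => (norm_ee _).le)
  have hGk : Integrable (fun w => G w * (gk R (s w) : ℂ)) (ν.prod ν) :=
    hGi.mul_bdd (c := R)
      (Complex.continuous_ofReal.measurable.comp
        ((continuous_gk R).measurable.comp hsm)).aestronglyMeasurable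
      (Eventually.of_forall fun w => by
        rw [Complex.norm_real, Real.norm_of_nonneg (gk_nonneg hR.le _)]; exact gk_le hR.le _)
  have hkey : ((∫ t, gw T t * ∫ x, gw R x * ‖ext1 φ g t x‖ ^ 4 : ℝ) : ℂ) =
      ∫ w, G w * (gk R (s w) : ℂ) * (gk T (D w) : ℂ) ∂(ν.prod ν) := by
    rw [← gauss_average hT0 hGk hDm, ← integral_complex_ofReal]
    refine integral_congr_ae (Eventually.of_forall fun t => ?_)
    beta_reduce
    rw [Complex.ofReal_mul, ← integral_complex_ofReal]
    congr 1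
    calc ∫ x, ((gw R x * ‖ext1 φ g t x‖ ^ 4 : ℝ) : ℂ)
        = ∫ x, (gw R x : ℂ) * ∫ w, G w * ee (t * D w) * ee (x * s w) ∂(ν.prod ν) := by
          refine integral_congr_ae (Eventually.of_forall fun x => ?_)
          beta_reduce
          rw [Complex.ofReal_mul, hpow]
      _ = ∫ w, G w * ee (t * D w) * (gk R (s w) : ℂ) ∂(ν.prod ν) :=
          gauss_average hR (hGt t) hsm
      _ = _ := by
          refine integral_congr_ae (Eventually.of_forall fun w => ?_)
          ring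
  have hcont : Continuous fun p : ℝ × ℝ => ext1 φ g p.1 p.2 :=
    continuous_ext1 hφc.measurable hg
  have hinner : ∀ t, ∫⁻ x, ENNReal.ofReal (gw R x) * ‖ext1 φ g t x‖ₑ ^ 4 =
      ENNReal.ofReal (∫ x, gw R x * ‖ext1 φ g t x‖ ^ 4) := by
    intro t
    have hx : Continuous fun x => ext1 φ g t x := hcont.comp (Continuous.prodMk_right t)
    have hi : Integrable fun x => gw R x * ‖ext1 φ g t x‖ ^ 4 := by
      refine ((integrable_gw hR).mul_const (N ^ 4)).mono'
        (Continuous.aestronglyMeasurable (by fun_prop)) (Eventually.of_forall fun x => ?_)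
      rw [Real.norm_of_nonneg (mul_nonneg (gw_nonneg _ _) (by positivity))]
      exact mul_le_mul_of_nonneg_left (pow_le_pow_left₀ (norm_nonneg _) (hbound t x) 4)
        (gw_nonneg _ _)
    rw [ofReal_integral_eq_lintegral_ofReal hi
      (Eventually.of_forall fun x => mul_nonneg (gw_nonneg _ _) (by positivity))]
    refine lintegral_congr fun x => ?_
    rw [ENNReal.ofReal_mul (gw_nonneg _ _), ENNReal.ofReal_pow (norm_nonneg _), ofReal_norm]
  have hnn : ∀ t, 0 ≤ gw T t * ∫ x, gw R x * ‖ext1 φ g t x‖ ^ 4 := fun t =>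
    mul_nonneg (gw_nonneg _ _)
      (integral_nonneg fun x => mul_nonneg (gw_nonneg _ _) (by positivity))
  have houter : Integrable fun t => gw T t * ∫ x, gw R x * ‖ext1 φ g t x‖ ^ 4 := by
    have hm : StronglyMeasurable fun t => ∫ x, gw R x * ‖ext1 φ g t x‖ ^ 4 :=
      StronglyMeasurable.integral_prod_right'
        (f := fun p : ℝ × ℝ => gw R p.2 * ‖ext1 φ g p.1 p.2‖ ^ 4)
        (Continuous.stronglyMeasurable (by fun_prop))
    refine ((integrable_gw hT0).mul_const ((∫ x, gw R x) * N ^ 4)).mono'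
      ((continuous_gw T).stronglyMeasurable.mul hm).aestronglyMeasurable
      (Eventually.of_forall fun t => ?_)
    rw [Real.norm_of_nonneg (hnn t), ← integral_mul_const]
    refine mul_le_mul_of_nonneg_left (integral_mono_of_nonneg
      (Eventually.of_forall fun x => mul_nonneg (gw_nonneg _ _) (by positivity))
      ((integrable_gw hR).mul_const _)
      (Eventually.of_forall fun x => mul_le_mul_of_nonneg_left
        (pow_le_pow_left₀ (norm_nonneg _) (hbound t x) 4) (gw_nonneg _ _))) (gw_nonneg _ _)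
  set K : (ℝ × ℝ) × (ℝ × ℝ) → ℝ≥0∞ := fun w =>
    ENNReal.ofReal (gk R (s w)) * ENNReal.ofReal (gk T (D w)) with hK
  have hKm : Measurable K := by simp only [hK]; fun_prop
  calc ∫⁻ t, ENNReal.ofReal (gw T t) * ∫⁻ x, ENNReal.ofReal (gw R x) * ‖ext1 φ g t x‖ₑ ^ 4
      = ENNReal.ofReal (∫ t, gw T t * ∫ x, gw R x * ‖ext1 φ g t x‖ ^ 4) := by
        rw [ofReal_integral_eq_lintegral_ofReal houter (Eventually.of_forall hnn)]
        refine lintegral_congr fun t => ?_
        rw [hinner, ENNReal.ofReal_mul (gw_nonneg _ _)]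
    _ ≤ ‖∫ w, G w * (gk R (s w) : ℂ) * (gk T (D w) : ℂ) ∂(ν.prod ν)‖ₑ := by
        rw [← hkey, ← ofReal_norm, Complex.norm_real]
        exact ENNReal.ofReal_le_ofReal (le_abs_self _)
    _ ≤ ∫⁻ w, ‖g2 w.1‖ₑ * ‖g2 w.2‖ₑ * K w ∂(ν.prod ν) := by
        refine (enorm_integral_le_lintegral_enorm _).trans (le_of_eq (lintegral_congr fun w => ?_))
        simp only [hG, hK, enorm_mul, RCLike.enorm_conj, mul_assoc]
        rw [← ofReal_norm (((gk R (s w) : ℝ) : ℂ)), ← ofReal_norm (((gk T (D w) : ℝ) : ℂ)),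
          Complex.norm_real, Complex.norm_real, Real.norm_of_nonneg (gk_nonneg hR.le _),
          Real.norm_of_nonneg (gk_nonneg hT0.le _)]
    _ ≤ ∫⁻ w, ‖g w.1.1‖ₑ ^ 4 * K w ∂(ν.prod ν) := bilinear_symm hg.aestronglyMeasurable.enorm hKm
          (fun w => by
            simp only [hK, hs, hD, Prod.fst_swap, Prod.snd_swap]
            rw [← gk_neg R, ← gk_neg T, neg_sub, neg_sub])
          (fun w => by simp only [hK, hs, hD, Prod.fst_swap, Prod.snd_swap]; ring_nf)
          (fun p => enorm_mul _ _)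
    _ = ∫⁻ ξ₁, ‖g ξ₁‖ₑ ^ 4 * ∫⁻ ξ₃, ∫⁻ ξ₄, ∫⁻ ξ₂, K ((ξ₁, ξ₂), (ξ₃, ξ₄)) ∂I₁ ∂I₁ ∂I₁ ∂I₁ := by
        have hge : AEMeasurable (fun w : (ℝ × ℝ) × (ℝ × ℝ) => ‖g w.1.1‖ₑ ^ 4) (ν.prod ν) :=
          ((hg.aestronglyMeasurable.comp_fst).comp_fst.enorm).pow_const 4
        have hgK : AEMeasurable (fun w : (ℝ × ℝ) × (ℝ × ℝ) => ‖g w.1.1‖ₑ ^ 4 * K w) (ν.prod ν) :=
          hge.mul hKm.aemeasurable
        rw [lintegral_prod _ hgK]
        simp only [lintegral_const_mul' _ _ (ENNReal.pow_ne_top enorm_ne_top)]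
        rw [hν, lintegral_prod]
        · refine lintegral_congr fun ξ₁ => ?_
          simp only [lintegral_const_mul' _ _ (ENNReal.pow_ne_top enorm_ne_top)]
          congr 1
          have hm3 : Measurable fun p : ℝ × ℝ × ℝ => K ((ξ₁, p.1), p.2) :=
            hKm.comp (by fun_prop)
          rw [lintegral_lintegral_swap hm3.aemeasurable, lintegral_prod]
          exact (Measurable.lintegral_prod_left' (f := fun p : ℝ × ℝ × ℝ => K ((ξ₁, p.1), p.2))
            hm3).aemeasurable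
        · exact (((hg.aestronglyMeasurable.comp_fst).enorm).pow_const 4).mul
            (Measurable.lintegral_prod_right' (f := K) hKm).aemeasurable
    _ ≤ _ := by
        rw [mul_comm (ENNReal.ofReal _), ← lintegral_mul_const' _ _ ENNReal.ofReal_ne_top]
        refine lintegral_mono fun ξ₁ => mul_le_mul_of_nonneg_left ?_ zero_le
        simp only [hK, hs, hD]
        exact schur h hR hT ξ₁

/-- The logarithmic `L⁴` estimate. -/
theorem l4 (h : Curved c φ) {g : ℝ → ℂ} (hg : Integrable g I₁) {T : ℝ} (hT : 1 ≤ T) :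
    ∫⁻ t in Icc (-T) T, ∫⁻ x, ‖ext1 φ g t x‖ₑ ^ 4 ≤
      ENNReal.ofReal (Real.exp π * Lc c T) * ∫⁻ ξ, ‖g ξ‖ₑ ^ 4 ∂I₁ := by
  have hT0 : 0 < T := one_pos.trans_le hT
  have hcont : Continuous fun p : ℝ × ℝ => ext1 φ g p.1 p.2 :=
    continuous_ext1 h.differentiable.continuous.measurable hg
  have hlim : ∀ x : ℝ, Tendsto (fun n : ℕ => ENNReal.ofReal (gw ((n : ℝ) + 1) x)) atTop (𝓝 1) := by
    intro x
    have h0 : Tendsto (fun n : ℕ => x / ((n : ℝ) + 1)) atTop (𝓝 0) := by
      simpa [div_eq_mul_inv] using (tendsto_one_div_add_atTop_nhds_zero_nat (𝕜 := ℝ)).const_mul x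
    have hc : Continuous fun y : ℝ => ENNReal.ofReal (Real.exp (-(π * y ^ 2))) :=
      ENNReal.continuous_ofReal.comp (by fun_prop)
    simpa [gw, Function.comp_def] using (hc.tendsto 0).comp h0
  set B := ENNReal.ofReal (Lc c T) * ∫⁻ ξ, ‖g ξ‖ₑ ^ 4 ∂I₁ with hB
  have hA : ∀ n : ℕ, Measurable fun p : ℝ × ℝ =>
      ENNReal.ofReal (gw ((n : ℝ) + 1) p.2) * ‖ext1 φ g p.1 p.2‖ₑ ^ 4 := fun n =>
    ((continuous_gw _).measurable.comp measurable_snd).ennreal_ofReal.mul
      (hcont.measurable.enorm.pow_const 4)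
  have hweighted : ∫⁻ t, ENNReal.ofReal (gw T t) * ∫⁻ x, ‖ext1 φ g t x‖ₑ ^ 4 ≤ B := by
    calc ∫⁻ t, ENNReal.ofReal (gw T t) * ∫⁻ x, ‖ext1 φ g t x‖ₑ ^ 4
        ≤ ∫⁻ t, liminf (fun n : ℕ => ENNReal.ofReal (gw T t) *
            ∫⁻ x, ENNReal.ofReal (gw ((n : ℝ) + 1) x) * ‖ext1 φ g t x‖ₑ ^ 4) atTop := by
          refine lintegral_mono fun t => ?_
          rw [← lintegral_const_mul' _ _ ENNReal.ofReal_ne_top]
          simp only [← lintegral_const_mul' _ _ ENNReal.ofReal_ne_top]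
          refine le_trans (le_of_eq (lintegral_congr fun x => ?_))
            (lintegral_liminf_le fun n => (measurable_const.mul
              ((hA n).comp (measurable_const.prodMk measurable_id))))
          have h2 := ENNReal.Tendsto.const_mul (a := ENNReal.ofReal (gw T t))
            (ENNReal.Tendsto.mul_const (b := ‖ext1 φ g t x‖ₑ ^ 4) (hlim x)
              (Or.inr (ENNReal.pow_ne_top enorm_ne_top))) (Or.inr ENNReal.ofReal_ne_top)
          rw [one_mul] at h2
          exact h2.liminf_eq.symm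
      _ ≤ liminf (fun n : ℕ => ∫⁻ t, ENNReal.ofReal (gw T t) *
            ∫⁻ x, ENNReal.ofReal (gw ((n : ℝ) + 1) x) * ‖ext1 φ g t x‖ₑ ^ 4) atTop :=
          lintegral_liminf_le fun n => (ENNReal.continuous_ofReal.measurable.comp
            (continuous_gw T).measurable).mul (hA n).lintegral_prod_right'
      _ ≤ B := liminf_le_of_frequently_le'
          (Frequently.of_forall fun n => four_point h hg (by positivity) hT)
  calc ∫⁻ t in Icc (-T) T, ∫⁻ x, ‖ext1 φ g t x‖ₑ ^ 4
      ≤ ∫⁻ t in Icc (-T) T, ENNReal.ofReal (Real.exp π) *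
          (ENNReal.ofReal (gw T t) * ∫⁻ x, ‖ext1 φ g t x‖ₑ ^ 4) := by
        refine setLIntegral_mono' measurableSet_Icc fun t ht => ?_
        rw [← mul_assoc, ← ENNReal.ofReal_mul (Real.exp_pos _).le]
        refine le_mul_of_one_le_left zero_le ?_
        rw [← ENNReal.ofReal_one]
        refine ENNReal.ofReal_le_ofReal ?_
        rw [gw, ← Real.exp_add, Real.one_le_exp_iff]
        have : (t / T) ^ 2 ≤ 1 := by
          rw [sq_le_one_iff_abs_le_one, abs_div, abs_of_pos hT0, div_le_one hT0]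
          exact abs_le.mpr ht
        nlinarith [pi_pos]
    _ ≤ ENNReal.ofReal (Real.exp π) * B := by
        rw [lintegral_const_mul' _ _ ENNReal.ofReal_ne_top]
        exact mul_le_mul_of_nonneg_left ((setLIntegral_le_lintegral _ _).trans hweighted) zero_le
    _ = _ := by rw [hB, ENNReal.ofReal_mul (Real.exp_pos _).le, mul_assoc]

end Vale.Agent.P122.Strip
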