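import Vale.Agent.P122.Strip.L4

/-!
# P122: the van der Corput bound for the interval factor
-/

namespace Vale.Agent.P122.Strip

open MeasureTheory Real Set Filter
open scoped ENNReal Topology Interval

variable {c : ℝ} {ψ : ℝ → ℝ}

/-- The interval factor. -/
noncomputable def arc (ψ : ℝ → ℝ) (a b t x : ℝ) : ℂ := ∫ u in a..b, ee (x * u + t * ψ u)

/-- Monotone nonstationary phase. -/
lemma nonstationary {Φ Φ' Φ'' : ℝ → ℝ} {p q δ : ℝ} (hpq : p ≤ q) (hδ : 0 < δ)
    (h1 : ∀ u ∈ Icc p q, HasDerivAt Φ (Φ' u) u) (h2 : ∀ u ∈ Icc p q, HasDerivAt Φ' (Φ'' u) u)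
    (hc : ContinuousOn Φ'' (Icc p q)) (hmono : ∀ u ∈ Icc p q, 0 ≤ Φ'' u)
    (hbig : ∀ u ∈ Icc p q, δ ≤ |Φ' u|) :
    ‖∫ u in p..q, ee (Φ u)‖ ≤ 2 / (π * δ) := by
  have hne : ∀ u ∈ Icc p q, Φ' u ≠ 0 := fun u hu h => by
    have := hbig u hu; rw [h, abs_zero] at this; linarith
  have hIcc : [[p, q]] = Icc p q := uIcc_of_le hpq
  set w : ℝ → ℂ := fun u => (((2 * π * Φ' u : ℝ) : ℂ) * Complex.I)⁻¹ with hw
  set w' : ℝ → ℂ := fun u => -(((2 * π * Φ'' u : ℝ) : ℂ) * Complex.I) /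
    (((2 * π * Φ' u : ℝ) : ℂ) * Complex.I) ^ 2 with hw'
  set e' : ℝ → ℂ := fun u => ee (Φ u) * (((2 * π * Φ' u : ℝ) : ℂ) * Complex.I) with he'
  have hnz : ∀ u ∈ Icc p q, ((2 * π * Φ' u : ℝ) : ℂ) * Complex.I ≠ 0 := fun u hu =>
    mul_ne_zero (Complex.ofReal_ne_zero.mpr (mul_ne_zero (by positivity) (hne u hu))) Complex.I_ne_zero
  have hdw : ∀ u ∈ [[p, q]], HasDerivAt w (w' u) u := by
    intro u hu
    rw [hIcc] at hu
    exact (((h2 u hu).const_mul (2 * π)).ofReal_comp.mul_const Complex.I).inv (hnz u hu)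
  have hde : ∀ u ∈ [[p, q]], HasDerivAt (fun u => ee (Φ u)) (e' u) u := by
    intro u hu
    rw [hIcc] at hu
    exact (((h1 u hu).const_mul (2 * π)).ofReal_comp.mul_const Complex.I).cexp
  have hcΦ : ContinuousOn Φ (Icc p q) := fun u hu => (h1 u hu).continuousAt.continuousWithinAt
  have hcΦ' : ContinuousOn Φ' (Icc p q) := fun u hu => (h2 u hu).continuousAt.continuousWithinAt
  have hcw' : ContinuousOn w' [[p, q]] := by
    rw [hIcc]
    refine ContinuousOn.div (by fun_prop) (by fun_prop) fun u hu => pow_ne_zero _ (hnz u hu)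
  have hce : ContinuousOn e' [[p, q]] := by
    rw [hIcc]
    exact (continuous_ee.comp_continuousOn hcΦ).mul (by fun_prop)
  have hparts := intervalIntegral.integral_mul_deriv_eq_deriv_mul hdw hde
    hcw'.intervalIntegrable hce.intervalIntegrable
  have hleft : ∫ u in p..q, w u * e' u = ∫ u in p..q, ee (Φ u) := by
    refine intervalIntegral.integral_congr fun u hu => ?_
    rw [hIcc] at hu
    simp only [hw, he']
    rw [mul_left_comm, inv_mul_cancel₀ (hnz u hu), mul_one]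
  rw [hleft] at hparts
  have hnw : ∀ u ∈ Icc p q, ‖w u * ee (Φ u)‖ = 1 / (2 * π * |Φ' u|) := by
    intro u hu
    simp only [hw]
    rw [norm_mul, norm_ee, mul_one, norm_inv, norm_mul, Complex.norm_real, Complex.norm_I, mul_one,
      Real.norm_eq_abs, abs_mul, abs_of_pos (show (0 : ℝ) < 2 * π by positivity), one_div]
  set v : ℝ → ℝ := fun u => -(1 / (2 * π * Φ' u)) with hv
  set v' : ℝ → ℝ := fun u => Φ'' u / (2 * π * Φ' u ^ 2) with hv'
  have hdv : ∀ u ∈ [[p, q]], HasDerivAt v (v' u) u := by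
    intro u hu
    rw [hIcc] at hu
    have h := (((h2 u hu).const_mul (2 * π)).inv
      (mul_ne_zero (by positivity) (hne u hu))).neg
    simp only [hv, one_div]
    refine h.congr_deriv ?_
    simp only [hv']
    have := hne u hu
    field_simp
  have hrest : ‖∫ u in p..q, w' u * ee (Φ u)‖ ≤ v q - v p := by
    have hcv' : ContinuousOn v' (Icc p q) := by
      refine ContinuousOn.div hc (by fun_prop) fun u hu => ?_
      have := hne u hu; positivity
    rw [← intervalIntegral.integral_eq_sub_of_hasDerivAt hdv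
      (hcv'.mono hIcc.le).intervalIntegrable]
    refine intervalIntegral.norm_integral_le_of_norm_le hpq ?_
      (hcv'.mono hIcc.le).intervalIntegrable
    refine Eventually.of_forall fun u hu => le_of_eq ?_
    have hu' : u ∈ Icc p q := Ioc_subset_Icc_self hu
    simp only [hw', hv']
    rw [norm_mul, norm_ee, mul_one, norm_div, norm_neg, norm_pow, norm_mul, norm_mul,
      Complex.norm_real, Complex.norm_real, Complex.norm_I, mul_one, mul_one, Real.norm_eq_abs,
      Real.norm_eq_abs, sq_abs, abs_of_nonneg (mul_nonneg (by positivity) (hmono u hu'))]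
    have := hne u hu'
    field_simp
  have hedge : ∀ u ∈ Icc p q, 1 / (2 * π * |Φ' u|) ≤ 1 / (2 * π * δ) := fun u hu =>
    one_div_le_one_div_of_le (by positivity) (mul_le_mul_of_nonneg_left (hbig u hu) (by positivity))
  have hvbd : ∀ u ∈ Icc p q, |v u| ≤ 1 / (2 * π * δ) := fun u hu => by
    simp only [hv]
    rw [abs_neg, abs_div, abs_one, abs_mul, abs_of_pos (show (0 : ℝ) < 2 * π by positivity)]
    exact hedge u hu
  have hp : p ∈ Icc p q := ⟨le_rfl, hpq⟩
  have hq : q ∈ Icc p q := ⟨hpq, le_rfl⟩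
  rw [hparts]
  refine (norm_sub_le _ _).trans ((add_le_add (norm_sub_le _ _) hrest).trans ?_)
  rw [hnw q hq, hnw p hp]
  have := (abs_le.mp (hvbd q hq)).2
  have := (abs_le.mp (hvbd p hp)).1
  have := hedge q hq
  have := hedge p hp
  rw [show 2 / (π * δ) = 4 * (1 / (2 * π * δ)) by field_simp; ring]
  linarith

lemma exists_threshold {f : ℝ → ℝ} {a b v : ℝ} (hab : a ≤ b) (hf : MonotoneOn f (Icc a b)) :
    ∃ w ∈ Icc a b, (∀ u ∈ Ico a w, f u < v) ∧ ∀ u ∈ Ioc w b, v ≤ f u := by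
  classical
  set S : Set ℝ := insert a {u ∈ Icc a b | f u < v} with hS
  have hne : S.Nonempty := ⟨a, mem_insert _ _⟩
  have hbd : BddAbove S := ⟨b, by
    rintro u (rfl | hu)
    · exact hab
    · exact hu.1.2⟩
  refine ⟨sSup S, ⟨le_csSup hbd (mem_insert _ _), csSup_le hne (by
    rintro u (rfl | hu)
    · exact hab
    · exact hu.1.2)⟩, fun u hu => ?_, fun u hu => ?_⟩
  · obtain ⟨z, hz, huz⟩ := exists_lt_of_lt_csSup hne hu.2
    rcases hz with rfl | hz
    · exact absurd huz (not_lt.mpr hu.1)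
    · exact (hf ⟨hu.1, huz.le.trans hz.1.2⟩ hz.1 huz.le).trans_lt hz.2
  · by_contra hlt
    have hau : a ≤ u := (le_csSup hbd (mem_insert a _)).trans hu.1.le
    exact hu.1.not_ge (le_csSup hbd (mem_insert_of_mem _ ⟨⟨hau, hu.2⟩, not_le.mp hlt⟩))

/-- The second-derivative test. -/
theorem arc_decay (h : Curved c ψ) {a b : ℝ} (ha : -1 ≤ a) (hab : a ≤ b) (hb : b ≤ 1) {t : ℝ}
    (ht : t ≠ 0) (x : ℝ) : ‖arc ψ a b t x‖ ≤ 4 / Real.sqrt (c * |t|) := by
  wlog htp : 0 < t generalizing t x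
  · have := this (t := -t) (neg_ne_zero.mpr ht) (-x)
      (neg_pos.mpr (lt_of_le_of_ne (not_lt.mp htp) ht))
    rw [abs_neg] at this
    refine le_trans (le_of_eq ?_) this
    unfold arc
    rw [← Complex.norm_conj (∫ u in a..b, ee (x * u + t * ψ u)),
      intervalIntegral.integral_of_le hab, intervalIntegral.integral_of_le hab, ← integral_conj]
    congr 2; funext u
    rw [conj_ee]; ring_nf
  have hsub : ∀ {p q : ℝ}, a ≤ p → q ≤ b → Icc p q ⊆ Icc (-1 : ℝ) 1 := fun hp hq u hu =>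
    ⟨by linarith [hu.1], by linarith [hu.2]⟩
  rw [abs_of_pos htp]
  set s := Real.sqrt (c * t) with hs
  have hs0 : 0 < s := Real.sqrt_pos.mpr (mul_pos h.pos htp)
  have hs2 : s ^ 2 = c * t := Real.sq_sqrt (mul_pos h.pos htp).le
  set Φ : ℝ → ℝ := fun u => x * u + t * ψ u with hΦ
  set Φ' : ℝ → ℝ := fun u => x + t * deriv ψ u with hΦ'
  have hd1 : ∀ u, HasDerivAt Φ (Φ' u) u := fun u => by
    simpa [hΦ, hΦ'] using ((hasDerivAt_id u).const_mul x).fun_add
      ((h.differentiable u).hasDerivAt.const_mul t)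
  have hd2 : ∀ u, HasDerivAt Φ' (t * deriv (deriv ψ) u) u := fun u =>
    ((h.differentiable_deriv u).hasDerivAt.const_mul t).const_add x
  have hmono : MonotoneOn Φ' (Icc a b) := fun u hu v hv huv => by
    have hsl := h.slope (hsub le_rfl le_rfl hu) (hsub le_rfl le_rfl hv) huv
    have : 0 ≤ deriv ψ v - deriv ψ u :=
      (mul_nonneg h.pos.le (sub_nonneg.mpr huv)).trans hsl
    simp only [hΦ']
    nlinarith
  have hcΦ : Continuous fun u => ee (Φ u) := by
    have := h.differentiable.continuous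
    fun_prop
  have hcΦ' : Continuous Φ' := continuous_iff_continuousAt.mpr fun u => (hd2 u).continuousAt
  obtain ⟨w1, hw1, hlo1, hhi1⟩ := exists_threshold (v := -s) hab hmono
  obtain ⟨w2, hw2, hlo2, hhi2⟩ := exists_threshold (v := s) hw1.2
    (hmono.mono (Icc_subset_Icc_left hw1.1))
  have piece : ∀ p q, a ≤ p → p ≤ q → q ≤ b → (∀ u ∈ Ioo p q, s ≤ |Φ' u|) →
      ‖∫ u in p..q, ee (Φ u)‖ ≤ 2 / (π * s) := by
    intro p q hp hpq hq hbig
    rcases hpq.eq_or_lt with rfl | hlt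
    · simp only [intervalIntegral.integral_same, norm_zero]; positivity
    refine nonstationary hpq hs0 (fun u _ => hd1 u) (fun u _ => hd2 u)
      (h.continuous_deriv2.const_mul t).continuousOn
      (fun u hu => mul_nonneg htp.le (h.pos.le.trans (h.convex u (hsub hp hq hu)))) fun u hu => ?_
    have hcl : closure (Ioo p q) ⊆ {u | s ≤ |Φ' u|} :=
      closure_minimal hbig (isClosed_le continuous_const hcΦ'.abs)
    exact hcl (by rw [closure_Ioo hlt.ne]; exact hu)
  have hint : ∀ p q : ℝ, IntervalIntegrable (fun u => ee (Φ u)) volume p q := fun p q =>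
    hcΦ.intervalIntegrable p q
  have hmid : ‖∫ u in w1..w2, ee (Φ u)‖ ≤ 2 / s := by
    refine (intervalIntegral.norm_integral_le_of_norm_le_const (C := 1)
      fun u _ => (norm_ee _).le).trans ?_
    rw [one_mul, abs_of_nonneg (sub_nonneg.mpr hw2.1)]
    rcases hw2.1.eq_or_lt with heq | hlt
    · rw [heq, sub_self]; positivity
    have hin : ∀ u ∈ Ioo w1 w2, -s ≤ Φ' u ∧ Φ' u ≤ s := fun u hu =>
      ⟨hhi1 u ⟨hu.1, hu.2.le.trans hw2.2⟩, (hlo2 u ⟨hu.1.le, hu.2⟩).le⟩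
    have hcl : closure (Ioo w1 w2) ⊆ {u | -s ≤ Φ' u ∧ Φ' u ≤ s} :=
      closure_minimal hin ((isClosed_le continuous_const hcΦ').inter
        (isClosed_le hcΦ' continuous_const))
    rw [closure_Ioo hlt.ne] at hcl
    have h1 := (hcl ⟨le_rfl, hlt.le⟩).1
    have h2 := (hcl ⟨hlt.le, le_rfl⟩).2
    have hsl := h.slope (hsub le_rfl le_rfl ⟨hw1.1, hw1.2⟩)
      (hsub le_rfl le_rfl ⟨hw1.1.trans hw2.1, hw2.2⟩) hw2.1
    simp only [hΦ'] at h1 h2
    have h3 := mul_le_mul_of_nonneg_left hsl htp.le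
    rw [le_div_iff₀ hs0]
    nlinarith
  have e1 := piece a w1 le_rfl hw1.1 hw1.2 fun u hu => by
    have := hlo1 u ⟨hu.1.le, hu.2⟩
    rw [abs_of_neg (by linarith)]; linarith
  have e3 := piece w2 b (hw1.1.trans hw2.1) hw2.2 le_rfl fun u hu =>
    (hhi2 u ⟨hu.1, hu.2.le⟩).trans (le_abs_self _)
  have hsum : arc ψ a b t x = (∫ u in a..w1, ee (Φ u)) + (∫ u in w1..w2, ee (Φ u)) +
      ∫ u in w2..b, ee (Φ u) := by
    rw [intervalIntegral.integral_add_adjacent_intervals (hint _ _) (hint _ _),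
      intervalIntegral.integral_add_adjacent_intervals (hint _ _) (hint _ _)]
    rfl
  rw [hsum]
  refine (norm_add_le _ _).trans ((add_le_add ((norm_add_le _ _).trans (add_le_add e1 hmid)) e3).trans ?_)
  rw [show 2 / (π * s) = (2 / π) / s from (div_div _ _ _).symm]
  rw [← add_div, ← add_div]
  refine div_le_div_of_nonneg_right ?_ hs0.le
  have : 2 / π ≤ 1 := (div_le_one pi_pos).mpr (by linarith [two_le_pi])
  linarith

lemma arc_trivial (ψ : ℝ → ℝ) {a b : ℝ} (ha : -1 ≤ a) (hab : a ≤ b) (hb : b ≤ 1) (t x : ℝ) :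
    ‖arc ψ a b t x‖ ≤ 2 := by
  refine (intervalIntegral.norm_integral_le_of_norm_le_const (C := 1)
    fun u _ => (norm_ee _).le).trans ?_
  rw [one_mul, abs_of_nonneg (sub_nonneg.mpr hab)]; linarith

lemma arc_eq_ext1 {a b : ℝ} (ha : -1 ≤ a) (hab : a ≤ b) (hb : b ≤ 1) (t x : ℝ) :
    arc ψ a b t x = ext1 ψ ((Ioc a b).indicator 1) t x := by
  have hfun : (fun ξ => (Ioc a b).indicator (1 : ℝ → ℂ) ξ * ee (x * ξ + t * ψ ξ)) =
      (Ioc a b).indicator fun ξ => ee (x * ξ + t * ψ ξ) := by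
    funext ξ
    by_cases hξ : ξ ∈ Ioc a b
    · simp [hξ]
    · simp [hξ]
  rw [arc, ext1, hfun, integral_indicator measurableSet_Ioc, I₁,
    Measure.restrict_restrict measurableSet_Ioc, inter_eq_left.mpr
      (show Ioc a b ⊆ Icc (-1 : ℝ) 1 from fun u hu => ⟨by linarith [hu.1], by linarith [hu.2]⟩),
    intervalIntegral.integral_of_le hab]

/-- The `Lᵖ` norm of the interval factor, `p ≥ 2`, from a sup bound. -/
lemma arc_lp (h : Curved c ψ) {a b : ℝ} (ha : -1 ≤ a) (hab : a ≤ b) (hb : b ≤ 1) {p : ℝ}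
    (hp : 2 ≤ p) {t B : ℝ} (hB0 : 0 ≤ B) (hB : ∀ x, ‖arc ψ a b t x‖ ≤ B) :
    ∫⁻ x, ‖arc ψ a b t x‖ₑ ^ p ≤ ENNReal.ofReal (2 * B ^ (p - 2)) := by
  have hgi : Integrable ((Ioc a b).indicator (1 : ℝ → ℂ)) I₁ :=
    (integrable_const (1 : ℂ)).indicator measurableSet_Ioc
  have hl2 := l2_space h.differentiable.continuous.measurable hgi t
  simp only [← arc_eq_ext1 ha hab hb] at hl2
  have h2 : ∫⁻ ξ, ‖(Ioc a b).indicator (1 : ℝ → ℂ) ξ‖ₑ ^ 2 ∂I₁ ≤ ENNReal.ofReal 2 := by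
    calc ∫⁻ ξ, ‖(Ioc a b).indicator (1 : ℝ → ℂ) ξ‖ₑ ^ 2 ∂I₁ ≤ ∫⁻ _ξ, 1 ∂I₁ := by
          refine lintegral_mono fun ξ => ?_
          by_cases hξ : ξ ∈ Ioc a b <;> simp [hξ]
      _ = ENNReal.ofReal 2 := by
          rw [lintegral_const, one_mul, I₁, Measure.restrict_apply_univ, Real.volume_Icc]
          norm_num
  calc ∫⁻ x, ‖arc ψ a b t x‖ₑ ^ p
      ≤ ∫⁻ x, ENNReal.ofReal (B ^ (p - 2)) * ‖arc ψ a b t x‖ₑ ^ 2 := by
        refine lintegral_mono fun x => ?_
        rw [show p = (p - 2) + (2 : ℕ) by push_cast; ring,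
          ENNReal.rpow_add_of_nonneg _ _ (by linarith) (by norm_num), ENNReal.rpow_natCast,
          show (p - 2 + ((2 : ℕ) : ℝ) - 2) = p - 2 by push_cast; ring,
          ← ENNReal.ofReal_rpow_of_nonneg hB0 (by linarith)]
        refine mul_le_mul_of_nonneg_right (ENNReal.rpow_le_rpow ?_ (by linarith)) zero_le
        rw [← ofReal_norm]; exact ENNReal.ofReal_le_ofReal (hB x)
    _ ≤ ENNReal.ofReal (B ^ (p - 2)) * ENNReal.ofReal 2 := by
        rw [lintegral_const_mul' _ _ ENNReal.ofReal_ne_top]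
        exact mul_le_mul_of_nonneg_left (hl2.trans h2) zero_le
    _ = _ := by rw [← ENNReal.ofReal_mul (Real.rpow_nonneg hB0 _), mul_comm]

end Vale.Agent.P122.Strip
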