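import Vale.Agent.P122.Strip.Interp
import Vale.Agent.P122.Strip.Vdc

/-!
# P122: full range bounds for data with one derivative in one variable
-/

namespace Vale.Agent.P122.Strip

open MeasureTheory Real Set Filter
open scoped ENNReal Topology

variable {c d : ℝ} {φ ψ : ℝ → ℝ}

/-- Extension from the graph of `φ ξ + ψ u` over the square, in the graph parameter. -/
noncomputable def ext2 (φ ψ : ℝ → ℝ) (f : ℝ × ℝ → ℂ) (x : ℝ × ℝ × ℝ) : ℂ :=
  ∫ q, f q * ee (x.1 * q.1 + x.2.1 * q.2 + x.2.2 * (φ q.1 + ψ q.2)) ∂I₁.prod I₁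

/-- The dyadic shell. -/
def shell (j : ℕ) : Set ℝ := {t | (2 : ℝ) ^ j ≤ |t| ∧ |t| ≤ (2 : ℝ) ^ (j + 1)}

lemma measurableSet_shell (j : ℕ) : MeasurableSet (shell j) :=
  (measurableSet_le measurable_const measurable_id.abs).inter
    (measurableSet_le measurable_id.abs measurable_const)

lemma univ_subset_shells : (univ : Set ℝ) ⊆ Icc (-1) 1 ∪ ⋃ j, shell j := by
  intro t _
  rcases le_or_gt |t| 1 with h | h
  · exact Or.inl (abs_le.mp h)
  · obtain ⟨j, h1, h2⟩ := exists_nat_pow_near h.le (one_lt_two (α := ℝ))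
    exact Or.inr (mem_iUnion.mpr ⟨j, h1, h2.le⟩)

/-- The estimate for a strip `g ⊗ 1_{(a, b]}`. -/
theorem strip (hφ : Curved c φ) (hψ : Curved d ψ) {p : ℝ} (hp3 : 3 < p) (hp4 : p < 4) :
    ∃ K : ℝ≥0∞, K ≠ ⊤ ∧ ∀ g : ℝ → ℂ, Measurable g → Integrable g I₁ → ∀ a b : ℝ, -1 ≤ a → a ≤ b →
      b ≤ 1 →
        ∫⁻ x : ℝ × ℝ × ℝ, (‖ext1 φ g x.2.2 x.1‖ₑ * ‖arc ψ a b x.2.2 x.2.1‖ₑ) ^ p ≤
          K * ∫⁻ ξ, ‖g ξ‖ₑ ^ p ∂I₁ := by
  set ε := (p - 3) / 2 with hε
  have hε0 : 0 < ε := by rw [hε]; linarith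
  obtain ⟨K, hKt, hK⟩ := lp_slab hφ (p := p) (ε := ε) (by linarith) hp4 hε0
  set e := 2 - p / 2 + ε with he
  set D : ℝ := 2 * (4 / Real.sqrt d) ^ (p - 2) * 2 ^ e with hD
  set q : ℝ := 2 ^ ((1 - p / 2) + e) with hq
  have hd := hψ.pos
  have hq1 : ENNReal.ofReal q < 1 :=
    ENNReal.ofReal_lt_one.mpr (Real.rpow_lt_one_of_one_lt_of_neg one_lt_two
      (by rw [he, hε]; linarith))
  refine ⟨ENNReal.ofReal (2 * 2 ^ (p - 2)) * K +
    K * ENNReal.ofReal D * (1 - ENNReal.ofReal q)⁻¹, ?_, fun g hgm hg a b ha hab hb => ?_⟩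
  · refine ENNReal.add_ne_top.mpr ⟨ENNReal.mul_ne_top ENNReal.ofReal_ne_top hKt,
      ENNReal.mul_ne_top (ENNReal.mul_ne_top hKt ENNReal.ofReal_ne_top) ?_⟩
    exact ENNReal.inv_ne_top.mpr (tsub_pos_of_lt hq1).ne'
  have hφm := hφ.differentiable.continuous.measurable
  have hE : Measurable fun q : ℝ × ℝ => ext1 φ g q.1 q.2 := (continuous_ext1 hφm hg).measurable
  have hA : Measurable fun q : ℝ × ℝ => arc ψ a b q.1 q.2 := by
    simp only [arc_eq_ext1 ha hab hb]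
    exact (continuous_ext1 hψ.differentiable.continuous.measurable
      ((integrable_const (1 : ℂ)).indicator measurableSet_Ioc)).measurable
  set N := ∫⁻ ξ, ‖g ξ‖ₑ ^ p ∂I₁ with hN
  set U : ℝ → ℝ≥0∞ := fun t => ∫⁻ x, ‖ext1 φ g t x‖ₑ ^ p with hU
  set V : ℝ → ℝ≥0∞ := fun t => ∫⁻ x, ‖arc ψ a b t x‖ₑ ^ p with hV
  have hUm : Measurable U := (hE.enorm.pow_const p).lintegral_prod_right'
  have hVm : Measurable V := (hA.enorm.pow_const p).lintegral_prod_right'
  have hUT : ∀ T : ℝ, 1 ≤ T →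
      ∫⁻ t in Icc (-T) T, U t ≤ K * ENNReal.ofReal (T ^ e) * N := fun T hT => by
    refine le_of_eq_of_le ?_ (hK g hgm hg T hT)
    rw [slab, lintegral_prod _ (hE.enorm.pow_const p).aemeasurable]
  have htotal : ∫⁻ x : ℝ × ℝ × ℝ, (‖ext1 φ g x.2.2 x.1‖ₑ * ‖arc ψ a b x.2.2 x.2.1‖ₑ) ^ p =
      ∫⁻ t, U t * V t := by
    simp only [ENNReal.mul_rpow_of_nonneg _ _ (show 0 ≤ p by linarith)]
    have hm : Measurable fun x : ℝ × ℝ × ℝ =>
        ‖ext1 φ g x.2.2 x.1‖ₑ ^ p * ‖arc ψ a b x.2.2 x.2.1‖ₑ ^ p :=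
      ((hE.comp (by fun_prop : Measurable fun x : ℝ × ℝ × ℝ => (x.2.2, x.1))).enorm.pow_const p).mul
        ((hA.comp (by fun_prop : Measurable fun x : ℝ × ℝ × ℝ => (x.2.2, x.2.1))).enorm.pow_const p)
    rw [Measure.volume_eq_prod, lintegral_prod _ hm.aemeasurable]
    calc ∫⁻ x₁, ∫⁻ z : ℝ × ℝ, ‖ext1 φ g z.2 x₁‖ₑ ^ p * ‖arc ψ a b z.2 z.1‖ₑ ^ p
        = ∫⁻ x₁, ∫⁻ t, ‖ext1 φ g t x₁‖ₑ ^ p * V t := by
          refine lintegral_congr fun x₁ => ?_
          rw [Measure.volume_eq_prod,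
            lintegral_prod_symm (fun z : ℝ × ℝ => ‖ext1 φ g z.2 x₁‖ₑ ^ p * ‖arc ψ a b z.2 z.1‖ₑ ^ p)
              (hm.comp (measurable_const.prodMk measurable_id)).aemeasurable]
          refine lintegral_congr fun t => ?_
          exact lintegral_const_mul' _ _
            (ENNReal.rpow_ne_top_of_nonneg (show 0 ≤ p by linarith)
              (enorm_ne_top (x := ext1 φ g t x₁)))
      _ = ∫⁻ t, ∫⁻ x₁, ‖ext1 φ g t x₁‖ₑ ^ p * V t :=
          lintegral_lintegral_swap (((hE.comp measurable_swap).enorm.pow_const p).mul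
            (hVm.comp measurable_snd)).aemeasurable
      _ = ∫⁻ t, U t * V t := lintegral_congr fun t =>
          lintegral_mul_const _ ((hE.comp (measurable_const.prodMk measurable_id)).enorm.pow_const p)
  have h0 : ∫⁻ t in Icc (-1 : ℝ) 1, U t * V t ≤ ENNReal.ofReal (2 * 2 ^ (p - 2)) * K * N := by
    refine (lintegral_mono fun t => mul_le_mul_of_nonneg_left
      (arc_lp hψ ha hab hb (by linarith) zero_le_two (arc_trivial ψ ha hab hb t)) zero_le).trans ?_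
    rw [lintegral_mul_const _ hUm, mul_comm, mul_assoc]
    refine mul_le_mul_of_nonneg_left ((hUT 1 le_rfl).trans (le_of_eq ?_)) zero_le
    rw [Real.one_rpow, ENNReal.ofReal_one, mul_one]
  have hj : ∀ j : ℕ, ∫⁻ t in shell j, U t * V t ≤
      K * ENNReal.ofReal D * ENNReal.ofReal q ^ j * N := by
    intro j
    set S : ℝ := (2 : ℝ) ^ j with hS
    have hS0 : 0 < S := by positivity
    set B : ℝ := 4 / Real.sqrt (d * S) with hB
    have hVj : ∀ t ∈ shell j, V t ≤ ENNReal.ofReal (2 * B ^ (p - 2)) := by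
      intro t ht
      have ht0 : t ≠ 0 := by
        intro h; have := ht.1; rw [h, abs_zero] at this; linarith
      refine arc_lp hψ ha hab hb (by linarith) (by positivity) fun x =>
        (arc_decay hψ ha hab hb ht0 x).trans ?_
      exact div_le_div_of_nonneg_left (by norm_num) (by positivity)
        (Real.sqrt_le_sqrt (mul_le_mul_of_nonneg_left ht.1 hd.le))
    calc ∫⁻ t in shell j, U t * V t
        ≤ ∫⁻ t in shell j, U t * ENNReal.ofReal (2 * B ^ (p - 2)) :=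
          setLIntegral_mono' (measurableSet_shell j) fun t ht =>
            mul_le_mul_of_nonneg_left (hVj t ht) zero_le
      _ = (∫⁻ t in shell j, U t) * ENNReal.ofReal (2 * B ^ (p - 2)) :=
          lintegral_mul_const _ hUm
      _ ≤ K * ENNReal.ofReal (((2 : ℝ) ^ (j + 1)) ^ e) * N *
            ENNReal.ofReal (2 * B ^ (p - 2)) := by
          refine mul_le_mul_of_nonneg_right ?_ zero_le
          refine le_trans (lintegral_mono_set ?_) (hUT _ (one_le_pow₀ one_le_two))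
          intro t ht
          exact abs_le.mp ht.2
      _ = _ := by
          have hBD : ((2 : ℝ) ^ (j + 1)) ^ e * (2 * B ^ (p - 2)) = D * q ^ j := by
            have h1 : B ^ (p - 2) = (4 / Real.sqrt d) ^ (p - 2) * S ^ (1 - p / 2) := by
              rw [hB, Real.sqrt_mul hd.le, ← div_div, Real.div_rpow (by positivity) (by positivity),
                Real.sqrt_eq_rpow S, ← Real.rpow_mul hS0.le,
                show 1 - p / 2 = -(1 / 2 * (p - 2)) by ring, Real.rpow_neg hS0.le,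
                div_eq_mul_inv]
            have h2 : ((2 : ℝ) ^ (j + 1)) ^ e = S ^ e * 2 ^ e := by
              rw [pow_succ, Real.mul_rpow (by positivity) zero_le_two]
            have h3 : q ^ j = S ^ (1 - p / 2) * S ^ e := by
              rw [← Real.rpow_add hS0, hS, ← Real.rpow_natCast 2 j, ← Real.rpow_mul zero_le_two,
                hq, ← Real.rpow_natCast, ← Real.rpow_mul zero_le_two, mul_comm]
            rw [h1, h2, h3, hD]; ring
          rw [show K * ENNReal.ofReal (((2 : ℝ) ^ (j + 1)) ^ e) * N *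
              ENNReal.ofReal (2 * B ^ (p - 2)) =
            K * (ENNReal.ofReal (((2 : ℝ) ^ (j + 1)) ^ e) * ENNReal.ofReal (2 * B ^ (p - 2))) * N
              by ring, ← ENNReal.ofReal_mul (by positivity), hBD,
            ENNReal.ofReal_mul (by positivity), ENNReal.ofReal_pow (by positivity)]
          ring
  rw [htotal, ← setLIntegral_univ]
  calc ∫⁻ t in univ, U t * V t
      ≤ ∫⁻ t in Icc (-1) 1 ∪ ⋃ j, shell j, U t * V t := lintegral_mono_set univ_subset_shells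
    _ ≤ (∫⁻ t in Icc (-1 : ℝ) 1, U t * V t) + ∫⁻ t in ⋃ j, shell j, U t * V t :=
        lintegral_union_le _ _ _
    _ ≤ ENNReal.ofReal (2 * 2 ^ (p - 2)) * K * N +
          ∑' j, K * ENNReal.ofReal D * ENNReal.ofReal q ^ j * N :=
        add_le_add h0 ((lintegral_iUnion_le _ _).trans (ENNReal.tsum_le_tsum hj))
    _ = _ := by
        rw [ENNReal.tsum_mul_right, ENNReal.tsum_mul_left, ENNReal.tsum_geometric]
        ring

/-- The primitive in the second variable. -/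
noncomputable def prim (g : ℝ → ℂ) (F : ℝ × ℝ → ℂ) (q : ℝ × ℝ) : ℂ :=
  g q.1 + ∫ s in (-1 : ℝ)..q.2, F (q.1, s)

/-- The half-line factor. -/
noncomputable def half (ψ : ℝ → ℝ) (s t x : ℝ) : ℂ :=
  ∫ u, (Ioi s).indicator 1 u * ee (x * u + t * ψ u) ∂I₁

lemma half_eq_arc {s : ℝ} (hs : s ∈ Icc (-1 : ℝ) 1) (t x : ℝ) :
    half ψ s t x = arc ψ s 1 t x := by
  rw [arc_eq_ext1 hs.1 hs.2 le_rfl]
  refine integral_congr_ae ?_
  filter_upwards [(ae_restrict_mem measurableSet_Icc : ∀ᵐ u ∂I₁, u ∈ Icc (-1 : ℝ) 1)] with u hu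
  congr 1
  by_cases h : s < u
  · rw [indicator_of_mem (mem_Ioi.mpr h), indicator_of_mem (show u ∈ Ioc s 1 from ⟨h, hu.2⟩)]
  · rw [indicator_of_notMem (by simpa using h),
      indicator_of_notMem (fun hh : u ∈ Ioc s 1 => h hh.1)]

/-- The superposition formula. -/
theorem ext2_prim (hφ : Continuous φ) (hψ : Continuous ψ) {g : ℝ → ℂ}
    (hg : Integrable g I₁) {F : ℝ × ℝ → ℂ} (hFm : Measurable F)
    (hF : Integrable F (I₁.prod I₁)) (x : ℝ × ℝ × ℝ) :
    ext2 φ ψ (prim g F) x = ext1 φ g x.2.2 x.1 * arc ψ (-1) 1 x.2.2 x.2.1 +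
      ∫ s, ext1 φ (fun ξ => F (ξ, s)) x.2.2 x.1 * half ψ s x.2.2 x.2.1 ∂I₁ := by
  set e₁ : ℝ → ℂ := fun ξ => ee (x.1 * ξ + x.2.2 * φ ξ) with he₁
  set e₂ : ℝ → ℂ := fun u => ee (x.2.1 * u + x.2.2 * ψ u) with he₂
  have hee : ∀ q : ℝ × ℝ, ee (x.1 * q.1 + x.2.1 * q.2 + x.2.2 * (φ q.1 + ψ q.2)) = e₁ q.1 * e₂ q.2 :=
    fun q => by simp only [he₁, he₂, ← ee_add]; ring_nf
  have hn1 : ∀ ξ, ‖e₁ ξ‖ = 1 := fun ξ => norm_ee _
  have hn2 : ∀ u, ‖e₂ u‖ = 1 := fun u => norm_ee _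
  have hm1 : Measurable e₁ := by simp only [he₁]; fun_prop
  have hm2 : Measurable e₂ := by simp only [he₂]; fun_prop
  set Kf : (ℝ × ℝ) × ℝ → ℂ := fun w =>
    (Ioi w.2).indicator 1 w.1.2 * F (w.1.1, w.2) * (e₁ w.1.1 * e₂ w.1.2) with hKf
  have hKm : Measurable Kf := by
    simp only [hKf]
    refine Measurable.mul (Measurable.mul ?_ (hFm.comp (by fun_prop)))
      ((hm1.comp (by fun_prop)).mul (hm2.comp (by fun_prop)))
    simp only [indicator, mem_Ioi]
    exact Measurable.ite (measurableSet_lt (by fun_prop) (by fun_prop)) measurable_const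
      measurable_const
  have hKi : Integrable Kf ((I₁.prod I₁).prod I₁) := by
    have hmp : MeasurePreserving (fun w : (ℝ × ℝ) × ℝ => ((w.1.1, w.2), w.1.2))
        ((I₁.prod I₁).prod I₁) ((I₁.prod I₁).prod I₁) :=
      ((measurePreserving_prodAssoc I₁ I₁ I₁).symm _).comp
        (((MeasurePreserving.id I₁).prod Measure.measurePreserving_swap).comp
          (measurePreserving_prodAssoc I₁ I₁ I₁))
    have h := (hmp.integrable_comp (hF.comp_fst I₁).aestronglyMeasurable).mpr (hF.comp_fst I₁)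
    refine h.norm.mono' hKm.aestronglyMeasurable (Eventually.of_forall fun w => ?_)
    simp only [hKf, Function.comp_apply, norm_mul, hn1, hn2, mul_one]
    refine mul_le_of_le_one_left (norm_nonneg _) ?_
    by_cases hh : w.1.2 ∈ Ioi w.2
    · rw [indicator_of_mem hh]; simp
    · rw [indicator_of_notMem hh]; simp
  have hgi : Integrable (fun q : ℝ × ℝ => g q.1 * (e₁ q.1 * e₂ q.2)) (I₁.prod I₁) :=
    (hg.comp_fst I₁).mul_bdd (c := 1)
      ((hm1.comp measurable_fst).mul (hm2.comp measurable_snd)).aestronglyMeasurable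
      (Eventually.of_forall fun q => by simp [hn1, hn2])
  have hmain : ∀ᵐ q ∂I₁.prod I₁, prim g F q * (e₁ q.1 * e₂ q.2) =
      g q.1 * (e₁ q.1 * e₂ q.2) + ∫ s, Kf (q, s) ∂I₁ := by
    have hq : ∀ᵐ q ∂I₁.prod I₁, q.2 ∈ Icc (-1 : ℝ) 1 :=
      Measure.quasiMeasurePreserving_snd.ae (ae_restrict_mem measurableSet_Icc)
    filter_upwards [hq] with q hq
    simp only [hKf, prim, add_mul]
    rw [integral_mul_const]
    congr 2
    rw [intervalIntegral.integral_of_le hq.1, I₁,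
      integral_Icc_eq_integral_Ioc]
    have : (fun s => (Ioi s).indicator (1 : ℝ → ℂ) q.2 * F (q.1, s)) =
        (Iio q.2).indicator fun s => F (q.1, s) := by
      funext s
      by_cases hh : s < q.2
      · rw [indicator_of_mem (mem_Ioi.mpr hh), indicator_of_mem (mem_Iio.mpr hh)]; simp
      · rw [indicator_of_notMem (by simpa using hh), indicator_of_notMem (by simpa using hh)]; simp
    rw [this, integral_indicator measurableSet_Iio, Measure.restrict_restrict measurableSet_Iio,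
      integral_Ioc_eq_integral_Ioo]
    congr 2
    ext s
    simp only [mem_Ioo, mem_inter_iff, mem_Iio, mem_Ioc]
    exact ⟨fun hh => ⟨hh.2, hh.1, by linarith [hh.2, hq.2]⟩, fun hh => ⟨hh.2.1, hh.1⟩⟩
  have hKint : Integrable (fun q => ∫ s, Kf (q, s) ∂I₁) (I₁.prod I₁) := hKi.integral_prod_left
  unfold ext2
  simp only [hee]
  rw [integral_congr_ae hmain, integral_add hgi hKint]
  congr 1
  · rw [arc, intervalIntegral.integral_of_le (by norm_num), ← integral_Icc_eq_integral_Ioc]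
    change _ = ext1 φ g x.2.2 x.1 * ∫ u, e₂ u ∂I₁
    rw [ext1, ← integral_prod_mul]
    simp only [he₁, mul_assoc]
  · rw [integral_integral_swap (f := fun q s => Kf (q, s)) hKi]
    refine integral_congr_ae (Eventually.of_forall fun s => ?_)
    simp only [hKf, ext1, half]
    rw [← integral_prod_mul]
    refine integral_congr_ae (Eventually.of_forall fun q => ?_)
    simp only [he₁, he₂]
    ring

lemma lp_one_le {α : Type*} [MeasurableSpace α] {μ : Measure α} {f : α → ℝ≥0∞}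
    (hf : AEMeasurable f μ) {p : ℝ} (hp : 1 < p) :
    (∫⁻ a, f a ∂μ) ^ p ≤ μ univ ^ (p - 1) * ∫⁻ a, f a ^ p ∂μ := by
  have hpq := Real.HolderConjugate.conjExponent hp
  have h := ENNReal.lintegral_mul_le_Lp_mul_Lq μ hpq hf (g := fun _ => 1) aemeasurable_const
  simp only [Pi.mul_apply, mul_one, ENNReal.one_rpow, lintegral_const, one_mul] at h
  refine (ENNReal.rpow_le_rpow h (by linarith)).trans (le_of_eq ?_)
  have hp0 : p ≠ 0 := by linarith
  have hp1 : p - 1 ≠ 0 := by linarith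
  rw [ENNReal.mul_rpow_of_nonneg _ _ (by linarith), ← ENNReal.rpow_mul, ← ENNReal.rpow_mul,
    one_div_mul_cancel hp0, ENNReal.rpow_one, mul_comm]
  congr 2
  rw [Real.conjExponent]
  field_simp

/-- The bound for `3 < p < 4`. -/
theorem prim_bound_low (hφ : Curved c φ) (hψ : Curved d ψ) {p : ℝ} (hp3 : 3 < p) (hp4 : p < 4) :
    ∃ K : ℝ≥0∞, K ≠ ⊤ ∧ ∀ g : ℝ → ℂ, ∀ F : ℝ × ℝ → ℂ, Measurable g → Measurable F →
      Integrable g I₁ → Integrable F (I₁.prod I₁) →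
        ∫⁻ x, ‖ext2 φ ψ (prim g F) x‖ₑ ^ p ≤
          K * (∫⁻ ξ, ‖g ξ‖ₑ ^ p ∂I₁ + ∫⁻ q, ‖F q‖ₑ ^ p ∂I₁.prod I₁) := by
  obtain ⟨K, hKt, hK⟩ := strip hφ hψ hp3 hp4
  have hI : I₁ univ ≠ ⊤ := measure_ne_top _ _
  set L := I₁ univ ^ (p - 1) with hL
  refine ⟨2 ^ (p - 1) * (K + L * K), ?_, fun g F hgm hFm hg hF => ?_⟩
  · exact ENNReal.mul_ne_top (ENNReal.rpow_ne_top_of_nonneg (by linarith) (by norm_num))
      (ENNReal.add_ne_top.mpr ⟨hKt, ENNReal.mul_ne_top
        (ENNReal.rpow_ne_top_of_nonneg (by linarith) hI) hKt⟩)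
  have hφc := hφ.differentiable.continuous
  have hψc := hψ.differentiable.continuous
  set Z : (ℝ × ℝ × ℝ) × ℝ → ℂ := fun w =>
    ext1 φ (fun ξ => F (ξ, w.2)) w.1.2.2 w.1.1 * half ψ w.2 w.1.2.2 w.1.2.1 with hZ
  have hZm : Measurable Z := by
    refine Measurable.mul ?_ ?_
    · exact (StronglyMeasurable.integral_prod_right' (ν := I₁)
        (f := fun v : ((ℝ × ℝ × ℝ) × ℝ) × ℝ =>
          F (v.2, v.1.2) * ee (v.1.1.1 * v.2 + v.1.1.2.2 * φ v.2))
        ((hFm.comp (by fun_prop)).mul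
          (continuous_ee.measurable.comp (by fun_prop))).stronglyMeasurable).measurable
    · refine (StronglyMeasurable.integral_prod_right' (ν := I₁)
        (f := fun v : ((ℝ × ℝ × ℝ) × ℝ) × ℝ =>
          (Ioi v.1.2).indicator 1 v.2 * ee (v.1.1.2.1 * v.2 + v.1.1.2.2 * ψ v.2)) ?_).measurable
      have he : Measurable fun v : ((ℝ × ℝ × ℝ) × ℝ) × ℝ =>
          ee (v.1.1.2.1 * v.2 + v.1.1.2.2 * ψ v.2) := continuous_ee.measurable.comp (by fun_prop)
      have hind : Measurable fun v : ((ℝ × ℝ × ℝ) × ℝ) × ℝ =>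
          (Ioi v.1.2).indicator (1 : ℝ → ℂ) v.2 := by
        simp only [indicator, mem_Ioi]
        exact Measurable.ite (measurableSet_lt (by fun_prop) (by fun_prop)) measurable_const
          measurable_const
      exact (hind.mul he).stronglyMeasurable
  have hA : Measurable fun x : ℝ × ℝ × ℝ =>
      ‖ext1 φ g x.2.2 x.1‖ₑ * ‖arc ψ (-1) 1 x.2.2 x.2.1‖ₑ := by
    have a1 : Measurable fun x : ℝ × ℝ × ℝ => ‖ext1 φ g x.2.2 x.1‖ₑ :=
      ((continuous_ext1 hφc.measurable hg).measurable.comp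
        (by fun_prop : Measurable fun x : ℝ × ℝ × ℝ => (x.2.2, x.1))).enorm
    have a2 : Measurable fun x : ℝ × ℝ × ℝ => ‖arc ψ (-1) 1 x.2.2 x.2.1‖ₑ := by
      simp only [arc_eq_ext1 (le_refl (-1 : ℝ)) (by norm_num : (-1 : ℝ) ≤ 1) le_rfl]
      exact ((continuous_ext1 hψc.measurable
        ((integrable_const (1 : ℂ)).indicator measurableSet_Ioc)).measurable.comp
        (by fun_prop : Measurable fun x : ℝ × ℝ × ℝ => (x.2.2, x.2.1))).enorm
    exact a1.mul a2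
  have hpt : ∀ x, ‖ext2 φ ψ (prim g F) x‖ₑ ^ p ≤ 2 ^ (p - 1) *
      ((‖ext1 φ g x.2.2 x.1‖ₑ * ‖arc ψ (-1) 1 x.2.2 x.2.1‖ₑ) ^ p +
        L * ∫⁻ s, ‖Z (x, s)‖ₑ ^ p ∂I₁) := by
    intro x
    rw [ext2_prim hφc hψc hg hFm hF x]
    refine (ENNReal.rpow_le_rpow (enorm_add_le _ _) (by linarith)).trans
      ((ENNReal.rpow_add_le_mul_rpow_add_rpow _ _ (by linarith)).trans ?_)
    refine mul_le_mul_of_nonneg_left (add_le_add (le_of_eq ?_) ?_) zero_le
    · rw [enorm_mul]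
    · refine (ENNReal.rpow_le_rpow (enorm_integral_le_lintegral_enorm _) (by linarith)).trans ?_
      exact lp_one_le (hZm.comp (measurable_const.prodMk measurable_id)).enorm.aemeasurable
        (by linarith)
  refine (lintegral_mono hpt).trans ?_
  have m1 : Measurable fun x : ℝ × ℝ × ℝ =>
      (‖ext1 φ g x.2.2 x.1‖ₑ * ‖arc ψ (-1) 1 x.2.2 x.2.1‖ₑ) ^ p := hA.pow_const p
  have m2 : Measurable fun x : ℝ × ℝ × ℝ => ∫⁻ s, ‖Z (x, s)‖ₑ ^ p ∂I₁ :=
    (hZm.enorm.pow_const p).lintegral_prod_right'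
  rw [lintegral_const_mul' _ _ (ENNReal.rpow_ne_top_of_nonneg (by linarith) (by norm_num)),
    lintegral_add_left m1, lintegral_const_mul L m2, mul_assoc]
  refine mul_le_mul_of_nonneg_left ?_ zero_le
  have h1 := hK g hgm hg (-1) 1 le_rfl (by norm_num) le_rfl
  have h2 : ∫⁻ x, ∫⁻ s, ‖Z (x, s)‖ₑ ^ p ∂I₁ ≤ K * ∫⁻ q, ‖F q‖ₑ ^ p ∂I₁.prod I₁ := by
    rw [lintegral_lintegral_swap (hZm.enorm.pow_const p).aemeasurable,
      lintegral_prod_symm _ (hFm.enorm.pow_const p).aemeasurable,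
      ← lintegral_const_mul' _ _ hKt]
    refine lintegral_mono_ae ?_
    filter_upwards [(ae_restrict_mem measurableSet_Icc : ∀ᵐ s ∂I₁, s ∈ Icc (-1 : ℝ) 1),
      hF.prod_left_ae] with s hs hFs
    simp only [hZ, enorm_mul, half_eq_arc hs]
    exact hK _ (hFm.comp (measurable_id.prodMk measurable_const)) hFs s 1 hs.1 hs.2 le_rfl
  refine (add_le_add h1 (mul_le_mul_of_nonneg_left h2 zero_le)).trans ?_
  rw [← mul_assoc, add_mul, mul_add, mul_add]
  exact add_le_add le_self_add le_add_self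

/-- The full range. -/
theorem prim_bound (hφ : Curved c φ) (hψ : Curved d ψ) {p : ℝ} (hp : 3 < p) :
    ∃ C : ℝ≥0∞, C ≠ ⊤ ∧ ∀ g : ℝ → ℂ, ∀ F : ℝ × ℝ → ℂ, Measurable g → Measurable F →
      MemLp g (ENNReal.ofReal p) I₁ → MemLp F (ENNReal.ofReal p) (I₁.prod I₁) →
        eLpNorm (ext2 φ ψ (prim g F)) (ENNReal.ofReal p) volume ≤
          C * (eLpNorm g (ENNReal.ofReal p) I₁ +
            eLpNorm F (ENNReal.ofReal p) (I₁.prod I₁)) := by
  set p₀ := min p (7 / 2) with hp₀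
  have h30 : 3 < p₀ := lt_min hp (by norm_num)
  have h04 : p₀ < 4 := lt_of_le_of_lt (min_le_right _ _) (by norm_num)
  have hle : p₀ ≤ p := min_le_left _ _
  obtain ⟨K, hKt, hK⟩ := prim_bound_low hφ hψ h30 h04
  have hpP : (ENNReal.ofReal p).toReal = p := ENNReal.toReal_ofReal (by linarith)
  have hp0P : (ENNReal.ofReal p₀).toReal = p₀ := ENNReal.toReal_ofReal (by linarith)
  set c₁ := (max 1 (I₁ univ)) ^ 2 with hc₁
  have hc₁t : c₁ ≠ ⊤ := ENNReal.pow_ne_top (max_lt ENNReal.one_lt_top (measure_lt_top _ _)).ne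
  have hc1 : 1 ≤ max 1 (I₁ univ) := le_max_left _ _
  have mono : ∀ {α : Type} [MeasurableSpace α] (μ : Measure α), μ univ ≤ c₁ → ∀ (f : α → ℂ)
      (r : ℝ), 1 ≤ r → r ≤ p → AEStronglyMeasurable f μ →
      eLpNorm f (ENNReal.ofReal r) μ ≤ c₁ * eLpNorm f (ENNReal.ofReal p) μ := by
    intro α _ μ hμ f r hr hrp hfm
    have h := eLpNorm_le_eLpNorm_mul_rpow_measure_univ (ENNReal.ofReal_le_ofReal hrp) hfm
    rw [ENNReal.toReal_ofReal (by linarith), hpP] at h
    refine h.trans ?_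
    rw [mul_comm]
    refine mul_le_mul_of_nonneg_right ?_ zero_le
    have hexp : 0 ≤ 1 / r - 1 / p := sub_nonneg.mpr (one_div_le_one_div_of_le (by linarith) hrp)
    have hexp1 : 1 / r - 1 / p ≤ 1 := by
      have : 1 / r ≤ 1 := (div_le_one (by linarith)).mpr hr
      have : 0 ≤ 1 / p := by positivity
      linarith
    calc μ univ ^ (1 / r - 1 / p) ≤ c₁ ^ (1 / r - 1 / p) := ENNReal.rpow_le_rpow hμ hexp
      _ ≤ c₁ ^ (1 : ℝ) := ENNReal.rpow_le_rpow_of_exponent_le (one_le_pow₀ hc1) hexp1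
      _ = c₁ := ENNReal.rpow_one _
  have hμ1 : I₁ univ ≤ c₁ := (le_max_right 1 _).trans (le_self_pow hc1 two_ne_zero)
  have hμ2 : (I₁.prod I₁) univ ≤ c₁ := by
    rw [Measure.prod_apply MeasurableSet.univ]
    simp only [preimage_univ, lintegral_const, hc₁, sq]
    exact mul_le_mul' (le_max_right _ _) (le_max_right _ _)
  refine ⟨((3 * c₁ * c₁) ^ (p - p₀) * (K * (c₁ ^ p₀ + c₁ ^ p₀))) ^ (1 / p), ?_,
    fun g F hgm hFm hg hF => ?_⟩
  · have h3 : 3 * c₁ * c₁ ≠ ⊤ := ENNReal.mul_ne_top (ENNReal.mul_ne_top (by norm_num) hc₁t) hc₁t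
    have h5 : c₁ ^ p₀ ≠ ⊤ := ENNReal.rpow_ne_top_of_nonneg (by linarith) hc₁t
    exact ENNReal.rpow_ne_top_of_nonneg (by positivity) (ENNReal.mul_ne_top
      (ENNReal.rpow_ne_top_of_nonneg (by linarith) h3)
      (ENNReal.mul_ne_top hKt (ENNReal.add_ne_top.mpr ⟨h5, h5⟩)))
  set S := eLpNorm g (ENNReal.ofReal p) I₁ + eLpNorm F (ENNReal.ofReal p) (I₁.prod I₁) with hS
  have hgi : Integrable g I₁ := hg.integrable (ENNReal.one_le_ofReal.mpr (by linarith))
  have hFi : Integrable F (I₁.prod I₁) := hF.integrable (ENNReal.one_le_ofReal.mpr (by linarith))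
  have h1g : ∫⁻ ξ, ‖g ξ‖ₑ ∂I₁ ≤ c₁ * eLpNorm g (ENNReal.ofReal p) I₁ := by
    have h := mono I₁ hμ1 g 1 le_rfl (by linarith) hg.aestronglyMeasurable
    rwa [ENNReal.ofReal_one, eLpNorm_one_eq_lintegral_enorm] at h
  have h1F : ∫⁻ q, ‖F q‖ₑ ∂I₁.prod I₁ ≤ c₁ * eLpNorm F (ENNReal.ofReal p) (I₁.prod I₁) := by
    have h := mono (I₁.prod I₁) hμ2 F 1 le_rfl (by linarith) hF.aestronglyMeasurable
    rwa [ENNReal.ofReal_one, eLpNorm_one_eq_lintegral_enorm] at h
  have hsup : ∀ x, ‖ext2 φ ψ (prim g F) x‖ₑ ≤ 3 * c₁ * c₁ * S := by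
    intro x
    refine (enorm_integral_le_lintegral_enorm _).trans ?_
    have hq : ∀ᵐ q ∂I₁.prod I₁, q.2 ∈ Icc (-1 : ℝ) 1 :=
      Measure.quasiMeasurePreserving_snd.ae (ae_restrict_mem measurableSet_Icc)
    calc ∫⁻ q, ‖prim g F q * ee _‖ₑ ∂I₁.prod I₁
        ≤ ∫⁻ q, (‖g q.1‖ₑ + ∫⁻ s, ‖F (q.1, s)‖ₑ ∂I₁) ∂I₁.prod I₁ := by
          refine lintegral_mono_ae ?_
          filter_upwards [hq] with q hq
          rw [enorm_mul, enorm_ee, mul_one, prim, intervalIntegral.integral_of_le hq.1]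
          refine (enorm_add_le _ _).trans (add_le_add le_rfl ?_)
          refine (enorm_integral_le_lintegral_enorm _).trans ?_
          exact lintegral_mono_set (fun s hs => ⟨hs.1.le, hs.2.trans hq.2⟩)
      _ = (∫⁻ ξ, ‖g ξ‖ₑ ∂I₁) * I₁ univ + (∫⁻ q, ‖F q‖ₑ ∂I₁.prod I₁) * I₁ univ := by
          have mF : Measurable fun ξ : ℝ => ∫⁻ s, ‖F (ξ, s)‖ₑ ∂I₁ := hFm.enorm.lintegral_prod_right'
          rw [lintegral_add_left (f := fun q : ℝ × ℝ => ‖g q.1‖ₑ) (hgm.enorm.comp measurable_fst)]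
          congr 1
          · rw [lintegral_prod (fun q : ℝ × ℝ => ‖g q.1‖ₑ)
              (hgm.enorm.comp measurable_fst).aemeasurable]
            simp only [lintegral_const]
            rw [lintegral_mul_const _ hgm.enorm]
          · rw [lintegral_prod (fun q : ℝ × ℝ => ∫⁻ s, ‖F (q.1, s)‖ₑ ∂I₁)
              (mF.comp measurable_fst).aemeasurable]
            simp only [lintegral_const]
            rw [lintegral_mul_const _ mF, lintegral_prod _ hFm.enorm.aemeasurable]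
      _ ≤ c₁ * eLpNorm g (ENNReal.ofReal p) I₁ * c₁ +
            c₁ * eLpNorm F (ENNReal.ofReal p) (I₁.prod I₁) * c₁ :=
          add_le_add (mul_le_mul' h1g hμ1) (mul_le_mul' h1F hμ1)
      _ = 1 * c₁ * c₁ * S := by rw [hS]; ring
      _ ≤ _ := by gcongr; norm_num
  have hlow : ∫⁻ x, ‖ext2 φ ψ (prim g F) x‖ₑ ^ p₀ ≤ K * (c₁ ^ p₀ + c₁ ^ p₀) * S ^ p₀ := by
    refine (hK g F hgm hFm hgi hFi).trans ?_
    have hpow : ∀ {α : Type} [MeasurableSpace α] (μ : Measure α) (f : α → ℂ), μ univ ≤ c₁ →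
        AEStronglyMeasurable f μ → eLpNorm f (ENNReal.ofReal p) μ ≤ S →
        ∫⁻ a, ‖f a‖ₑ ^ p₀ ∂μ ≤ c₁ ^ p₀ * S ^ p₀ := by
      intro α _ μ f hμ hfm hfS
      have h := (mono μ hμ f p₀ (by linarith) hle hfm).trans
        (mul_le_mul_of_nonneg_left hfS zero_le)
      rw [eLpNorm_eq_lintegral_rpow_enorm_toReal
        (ENNReal.ofReal_pos.mpr (by linarith)).ne' ENNReal.ofReal_ne_top, hp0P] at h
      have h' := ENNReal.rpow_le_rpow h (show 0 ≤ p₀ by linarith)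
      rwa [← ENNReal.rpow_mul, one_div_mul_cancel (by linarith), ENNReal.rpow_one,
        ENNReal.mul_rpow_of_nonneg _ _ (by linarith)] at h'
    rw [mul_assoc, add_mul]
    exact mul_le_mul_of_nonneg_left (add_le_add
      (hpow I₁ g hμ1 hg.aestronglyMeasurable le_self_add)
      (hpow _ F hμ2 hF.aestronglyMeasurable le_add_self)) zero_le
  rw [eLpNorm_eq_lintegral_rpow_enorm_toReal (ENNReal.ofReal_pos.mpr (by linarith)).ne'
    ENNReal.ofReal_ne_top, hpP]
  have htot : ∫⁻ x, ‖ext2 φ ψ (prim g F) x‖ₑ ^ p ≤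
      (3 * c₁ * c₁) ^ (p - p₀) * (K * (c₁ ^ p₀ + c₁ ^ p₀)) * S ^ p := by
    calc ∫⁻ x, ‖ext2 φ ψ (prim g F) x‖ₑ ^ p
        ≤ ∫⁻ x, (3 * c₁ * c₁ * S) ^ (p - p₀) * ‖ext2 φ ψ (prim g F) x‖ₑ ^ p₀ := by
          refine lintegral_mono fun x => ?_
          nth_rewrite 1 [show p = (p - p₀) + p₀ by ring]
          rw [ENNReal.rpow_add_of_nonneg _ _ (by linarith) (by linarith)]
          exact mul_le_mul_of_nonneg_right (ENNReal.rpow_le_rpow (hsup x) (by linarith)) zero_le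
      _ ≤ (3 * c₁ * c₁ * S) ^ (p - p₀) * (K * (c₁ ^ p₀ + c₁ ^ p₀) * S ^ p₀) := by
          rw [lintegral_const_mul' _ _ (ENNReal.rpow_ne_top_of_nonneg (by linarith)
            (ENNReal.mul_ne_top (ENNReal.mul_ne_top (ENNReal.mul_ne_top (by norm_num) hc₁t) hc₁t)
              (ENNReal.add_ne_top.mpr ⟨hg.eLpNorm_ne_top, hF.eLpNorm_ne_top⟩)))]
          exact mul_le_mul_of_nonneg_left hlow zero_le
      _ = _ := by
          nth_rewrite 3 [show p = (p - p₀) + p₀ by ring]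
          rw [ENNReal.mul_rpow_of_nonneg _ _ (by linarith),
            ENNReal.rpow_add_of_nonneg _ _ (by linarith) (by linarith)]
          ring
  refine (ENNReal.rpow_le_rpow htot (by positivity)).trans (le_of_eq ?_)
  rw [ENNReal.mul_rpow_of_nonneg _ _ (by positivity), ← ENNReal.rpow_mul,
    mul_one_div_cancel (by linarith), ENNReal.rpow_one]

end Vale.Agent.P122.Strip
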